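import Vale.Agent.P298.Bdl.B1

/-! A bound for the time derivative of `φ(u, v, t)` when `φ(0, 0, t) = 0`. -/

namespace Vale.Agent.P298.H974

open Filter Topology Metric Asymptotics

theorem bound_phi {k : ℕ} {φ : ℂ × (Fin k → ℂ) × ℂ → ℂ} (hφ : AnalyticAt ℂ φ 0)
    (h0 : ∀ᶠ t in 𝓝 (0 : ℂ), φ (0, 0, t) = 0) (hu : fderiv ℂ φ 0 (1, 0, 0) ≠ 0) :
    ∃ C : ℝ, ∀ᶠ q in 𝓝 (0 : ℂ × (Fin k → ℂ) × ℂ),
      ‖fderiv ℂ φ q (0, 0, 1)‖ ≤ C * (‖φ q‖ + ‖q.2.1‖) := by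
  have hψ : AnalyticAt ℂ (fun q => fderiv ℂ φ q (0, 0, 1)) 0 :=
    (ContinuousLinearMap.apply ℂ ℂ ((0, 0, 1) : ℂ × (Fin k → ℂ) × ℂ)).analyticAt _ |>.comp
      hφ.fderiv
  have ht : Tendsto (fun q : ℂ × (Fin k → ℂ) × ℂ => q.2.2) (𝓝 0) (𝓝 0) :=
    Continuous.tendsto (by fun_prop) (0 : ℂ × (Fin k → ℂ) × ℂ)
  have hax : Tendsto (fun t : ℂ => ((0, 0, t) : ℂ × (Fin k → ℂ) × ℂ)) (𝓝 0) (𝓝 0) :=
    Continuous.tendsto (by fun_prop) (0 : ℂ)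
  have hpair : Tendsto (fun q : ℂ × (Fin k → ℂ) × ℂ =>
      (q, ((0, 0, q.2.2) : ℂ × (Fin k → ℂ) × ℂ))) (𝓝 0) (𝓝 (0, 0)) :=
    Continuous.tendsto (by fun_prop) (0 : ℂ × (Fin k → ℂ) × ℂ)
  -- the time derivative vanishes on the axis
  have hψ0 : ∀ᶠ t in 𝓝 (0 : ℂ), fderiv ℂ φ (0, 0, t) (0, 0, 1) = 0 := by
    filter_upwards [h0.eventually_nhds, hax.eventually hφ.eventually_analyticAt] with t h1 h2
    have h3 : HasDerivAt (fun t : ℂ => ((0, 0, t) : ℂ × (Fin k → ℂ) × ℂ)) (0, 0, 1) t :=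
      (hasDerivAt_const t (0 : ℂ)).prodMk
        ((hasDerivAt_const t (0 : Fin k → ℂ)).prodMk (hasDerivAt_id t))
    have h4 : HasDerivAt (fun t : ℂ => φ (0, 0, t)) (fderiv ℂ φ (0, 0, t) (0, 0, 1)) t :=
      h2.differentiableAt.hasFDerivAt.comp_hasDerivAt t h3
    have h5 : HasDerivAt (fun t : ℂ => φ (0, 0, t)) 0 t :=
      (hasDerivAt_const t (0 : ℂ)).congr_of_eventuallyEq h1
    exact h4.unique h5
  -- the Lipschitz bound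
  obtain ⟨L, hL0, hL⟩ := (hψ.hasStrictFDerivAt.isBigO_sub).exists_pos
  have hL' := hpair.eventually hL.bound
  set A : ℂ := fderiv ℂ φ 0 (1, 0, 0) with hA
  have hA0 : 0 < ‖A‖ := norm_pos_iff.2 hu
  have hs := hpair.eventually (hφ.hasStrictFDerivAt.isLittleO.bound (half_pos hA0))
  set N : ℝ := ‖fderiv ℂ φ 0‖ with hN
  have hN0 : 0 ≤ N := norm_nonneg _
  refine ⟨L * ((1 + N + ‖A‖ / 2) * (2 / ‖A‖) + 1), ?_⟩
  filter_upwards [hL', hs, ht.eventually h0, ht.eventually hψ0] with q h1 h2 h3 h4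
  simp only [h4, sub_zero] at h1
  have e1 : q - (0, 0, q.2.2) = (q.1, q.2.1, 0) := by
    refine Prod.ext (by simp) (Prod.ext (by simp) (by simp))
  rw [e1] at h1
  simp only [h3, sub_zero, e1] at h2
  set a := ‖q.1‖ with ha
  set b := ‖q.2.1‖ with hb
  have ha0 : 0 ≤ a := norm_nonneg _
  have hb0 : 0 ≤ b := norm_nonneg _
  have e2 : ‖((q.1, q.2.1, 0) : ℂ × (Fin k → ℂ) × ℂ)‖ ≤ a + b := by
    rw [Prod.norm_def, Prod.norm_def]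
    simp only [norm_zero]
    refine max_le (by linarith) (max_le (by linarith) (by linarith))
  have e3 : fderiv ℂ φ 0 (q.1, q.2.1, 0) = q.1 * A + fderiv ℂ φ 0 (0, q.2.1, 0) := by
    have : ((q.1, q.2.1, 0) : ℂ × (Fin k → ℂ) × ℂ) =
        q.1 • ((1, 0, 0) : ℂ × (Fin k → ℂ) × ℂ) + (0, q.2.1, 0) := by
      refine Prod.ext (by simp) (Prod.ext (by simp) (by simp))
    rw [this, map_add, map_smul, smul_eq_mul]
  have e4 : ‖fderiv ℂ φ 0 (0, q.2.1, 0)‖ ≤ N * b := by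
    refine (ContinuousLinearMap.le_opNorm _ _).trans ?_
    refine mul_le_mul_of_nonneg_left ?_ hN0
    rw [Prod.norm_def, Prod.norm_def]
    simp only [norm_zero]
    exact max_le hb0 (max_le le_rfl hb0)
  have e5 : a * ‖A‖ ≤ ‖φ q‖ + N * b + ‖A‖ / 2 * (a + b) := by
    have e6 : q.1 * A = φ q - (φ q - fderiv ℂ φ 0 (q.1, q.2.1, 0)) -
        fderiv ℂ φ 0 (0, q.2.1, 0) := by
      rw [e3]
      ring
    calc a * ‖A‖ = ‖q.1 * A‖ := (norm_mul _ _).symm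
      _ = ‖φ q - (φ q - fderiv ℂ φ 0 (q.1, q.2.1, 0)) - fderiv ℂ φ 0 (0, q.2.1, 0)‖ := by
          rw [← e6]
      _ ≤ ‖φ q‖ + ‖φ q - fderiv ℂ φ 0 (q.1, q.2.1, 0)‖ + ‖fderiv ℂ φ 0 (0, q.2.1, 0)‖ :=
          (norm_sub_le _ _).trans (add_le_add (norm_sub_le _ _) le_rfl)
      _ ≤ ‖φ q‖ + ‖A‖ / 2 * (a + b) + N * b := by
          refine add_le_add (add_le_add le_rfl (h2.trans ?_)) e4
          exact mul_le_mul_of_nonneg_left e2 (by positivity)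
      _ = _ := by ring
  have e7 : a ≤ (1 + N + ‖A‖ / 2) * (2 / ‖A‖) * (‖φ q‖ + b) := by
    have hp : 0 ≤ ‖φ q‖ := norm_nonneg _
    have e8 : a * (‖A‖ / 2) ≤ (1 + N + ‖A‖ / 2) * (‖φ q‖ + b) := by
      nlinarith [mul_nonneg hN0 hp, mul_nonneg hA0.le hp, mul_nonneg hN0 hb0]
    have e9 : (1 + N + ‖A‖ / 2) * (2 / ‖A‖) * (‖φ q‖ + b) =
        ((1 + N + ‖A‖ / 2) * (‖φ q‖ + b)) / (‖A‖ / 2) := by
      field_simp
    rw [e9, le_div_iff₀ (by positivity)]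
    exact e8
  refine h1.trans ?_
  have hp : 0 ≤ ‖φ q‖ := norm_nonneg _
  calc L * ‖((q.1, q.2.1, 0) : ℂ × (Fin k → ℂ) × ℂ)‖ ≤ L * (a + b) :=
        mul_le_mul_of_nonneg_left e2 hL0.le
    _ ≤ L * ((1 + N + ‖A‖ / 2) * (2 / ‖A‖) * (‖φ q‖ + b) + (‖φ q‖ + b)) :=
        mul_le_mul_of_nonneg_left (by linarith) hL0.le
    _ = _ := by ring

end Vale.Agent.P298.H974
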