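import Vale.Agent.P298.H974.NoBad2

/-! Two functions in at least three variables generate an ideal of infinite colength; hence the
critical points of `ψ(f, g)` are not isolated if `ψ` has a critical point. -/

namespace Vale.Agent.P298.H974

open Filter Topology Metric Asymptotics

variable {n : ℕ}

/-- A polynomial of degree `< N` which is `O(|s| ^ N)` is zero. -/
theorem poly_zero : ∀ (N : ℕ) (C : ℕ → ℂ) (K : ℝ),
    (∀ᶠ s in 𝓝[≠] (0 : ℂ), ‖∑ j ∈ Finset.range N, C j * s ^ j‖ ≤ K * ‖s‖ ^ N) →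
    ∀ j < N, C j = 0 := by
  intro N
  induction N with
  | zero => intro C K _ j hj; omega
  | succ N ih =>
    intro C K h j hj
    have hC0 : C 0 = 0 := by
      have h1 : Tendsto (fun s : ℂ => ‖∑ j ∈ Finset.range (N + 1), C j * s ^ j‖) (𝓝[≠] 0)
          (𝓝 ‖∑ j ∈ Finset.range (N + 1), C j * (0 : ℂ) ^ j‖) :=
        (Continuous.tendsto (by fun_prop) 0).mono_left nhdsWithin_le_nhds
      have h2 : Tendsto (fun s : ℂ => K * ‖s‖ ^ (N + 1)) (𝓝[≠] 0)
          (𝓝 (K * ‖(0 : ℂ)‖ ^ (N + 1))) :=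
        (Continuous.tendsto (by fun_prop) 0).mono_left nhdsWithin_le_nhds
      have h3 := le_of_tendsto_of_tendsto h1 h2 h
      rw [Finset.sum_range_succ'] at h3
      simpa using h3
    have hrec : ∀ᶠ s in 𝓝[≠] (0 : ℂ),
        ‖∑ j ∈ Finset.range N, C (j + 1) * s ^ j‖ ≤ K * ‖s‖ ^ N := by
      filter_upwards [h, self_mem_nhdsWithin] with s hs hs0
      rw [Finset.sum_range_succ', hC0] at hs
      have e : ∑ j ∈ Finset.range N, C (j + 1) * s ^ (j + 1) =
          s * ∑ j ∈ Finset.range N, C (j + 1) * s ^ j := by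
        rw [Finset.mul_sum]
        exact Finset.sum_congr rfl fun j _ => by ring
      rw [zero_mul, add_zero, e, norm_mul, pow_succ] at hs
      have h0 : 0 < ‖s‖ := norm_pos_iff.2 hs0
      exact le_of_mul_le_mul_left (by linarith) h0
    cases j with
    | zero => exact hC0
    | succ j => exact ih (fun j => C (j + 1)) K hrec j (by omega)

theorem coeff_zero {m : ℕ} {D : Fin m → ℂ} (h : ∀ z : ℂ, ∑ a : Fin m, D a * z ^ (a : ℕ) = 0)
    (a : Fin m) : D a = 0 := by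
  have h1 := poly_zero m (fun j => if hj : j < m then D ⟨j, hj⟩ else 0) 0
    (Eventually.of_forall fun s => by
      rw [Finset.sum_range]
      have : ∑ i : Fin m, (if hj : (i : ℕ) < m then D ⟨i, hj⟩ else 0) * s ^ (i : ℕ) =
          ∑ a : Fin m, D a * s ^ (a : ℕ) :=
        Finset.sum_congr rfl fun i _ => by rw [dif_pos i.2]
      rw [this, h s]
      simp) a a.2
  simpa using h1

/-- The polynomials in three of the variables, of degree `< m` in each variable. -/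
noncomputable def polyL (m : ℕ) (i₀ i₁ i₂ : Fin n) :
    (Fin m × Fin m × Fin m → ℂ) →ₗ[ℂ] ((Fin n → ℂ) → ℂ) where
  toFun c := fun x => ∑ q : Fin m × Fin m × Fin m,
    c q * (x i₀ ^ (q.1 : ℕ) * x i₁ ^ (q.2.1 : ℕ) * x i₂ ^ (q.2.2 : ℕ))
  map_add' c c' := by
    funext x
    simp only [Pi.add_apply, add_mul, Finset.sum_add_distrib]
  map_smul' a c := by
    funext x
    simp only [Pi.smul_apply, smul_eq_mul, RingHom.id_apply, Finset.mul_sum, mul_assoc]

theorem polyL_apply (m : ℕ) (i₀ i₁ i₂ : Fin n) (c : Fin m × Fin m × Fin m → ℂ)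
    (x : Fin n → ℂ) : polyL m i₀ i₁ i₂ c x = ∑ q : Fin m × Fin m × Fin m,
      c q * (x i₀ ^ (q.1 : ℕ) * x i₁ ^ (q.2.1 : ℕ) * x i₂ ^ (q.2.2 : ℕ)) := rfl

/-- The polynomials of degree `< 3m` which are `O(‖x‖ ^ (3m))` are zero. -/
theorem polyL_zero {m : ℕ} {i₀ i₁ i₂ : Fin n} (h01 : i₀ ≠ i₁) (h02 : i₀ ≠ i₂) (h12 : i₁ ≠ i₂)
    {c : Fin m × Fin m × Fin m → ℂ}
    (h : polyL m i₀ i₁ i₂ c =O[𝓝 0] fun x : Fin n → ℂ => ‖x‖ ^ (3 * m)) : c = 0 := by
  obtain ⟨K, hK⟩ := h.bound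
  have hY : ∀ Y : Fin n → ℂ, polyL m i₀ i₁ i₂ c Y = 0 := by
    intro Y
    set d : Fin m × Fin m × Fin m → ℂ := fun q =>
      c q * (Y i₀ ^ (q.1 : ℕ) * Y i₁ ^ (q.2.1 : ℕ) * Y i₂ ^ (q.2.2 : ℕ)) with hd
    set deg : Fin m × Fin m × Fin m → ℕ := fun q => (q.1 : ℕ) + q.2.1 + q.2.2 with hdeg
    have hmaps : ∀ q ∈ (Finset.univ : Finset (Fin m × Fin m × Fin m)),
        deg q ∈ Finset.range (3 * m) := by
      intro q _
      rw [Finset.mem_range]
      have h1 := q.1.2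
      have h2 := q.2.1.2
      have h3 := q.2.2.2
      simp only [hdeg]
      omega
    have hline : ∀ s : ℂ, polyL m i₀ i₁ i₂ c (s • Y) =
        ∑ j ∈ Finset.range (3 * m),
          (∑ q ∈ (Finset.univ : Finset (Fin m × Fin m × Fin m)) with deg q = j, d q) * s ^ j := by
      intro s
      rw [polyL_apply]
      have e1 : ∀ q : Fin m × Fin m × Fin m,
          c q * ((s • Y) i₀ ^ (q.1 : ℕ) * (s • Y) i₁ ^ (q.2.1 : ℕ) * (s • Y) i₂ ^ (q.2.2 : ℕ)) =
          d q * s ^ deg q := by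
        intro q
        simp only [Pi.smul_apply, smul_eq_mul, hd, hdeg, pow_add, mul_pow]
        ring
      rw [Finset.sum_congr rfl fun q _ => e1 q,
        ← Finset.sum_fiberwise_of_maps_to hmaps (fun q => d q * s ^ deg q)]
      refine Finset.sum_congr rfl fun j _ => ?_
      rw [Finset.sum_mul]
      refine Finset.sum_congr rfl fun q hq => ?_
      rw [(Finset.mem_filter.1 hq).2]
    have hts : Tendsto (fun s : ℂ => s • Y) (𝓝[≠] 0) (𝓝 0) := by
      have h1 : Tendsto (fun s : ℂ => s • Y) (𝓝 0) (𝓝 ((0 : ℂ) • Y)) :=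
        Continuous.tendsto (by fun_prop) 0
      rw [zero_smul] at h1
      exact h1.mono_left nhdsWithin_le_nhds
    have hz := poly_zero (3 * m)
      (fun j => ∑ q ∈ (Finset.univ : Finset (Fin m × Fin m × Fin m)) with deg q = j, d q)
      (K * ‖Y‖ ^ (3 * m)) (by
        filter_upwards [hts.eventually hK] with s hs
        rw [← hline s]
        refine hs.trans_eq ?_
        rw [norm_pow, norm_norm, norm_smul, mul_pow]
        ring)
    have h1 := hline 1
    rw [one_smul] at h1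
    rw [h1]
    refine Finset.sum_eq_zero fun j hj => ?_
    rw [hz j (Finset.mem_range.1 hj), zero_mul]
  have hval : ∀ y₀ y₁ y₂ : ℂ, ∑ a : Fin m, (∑ b : Fin m, (∑ e : Fin m, c (a, b, e) *
      y₂ ^ (e : ℕ)) * y₁ ^ (b : ℕ)) * y₀ ^ (a : ℕ) = 0 := by
    intro y₀ y₁ y₂
    set Y : Fin n → ℂ := fun i => if i = i₀ then y₀ else if i = i₁ then y₁ else y₂ with hYdef
    have e0 : Y i₀ = y₀ := by simp [hYdef]
    have e1 : Y i₁ = y₁ := by simp [hYdef, h01.symm]
    have e2 : Y i₂ = y₂ := by simp [hYdef, h02.symm, h12.symm]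
    have h1 := hY Y
    rw [polyL_apply, Fintype.sum_prod_type] at h1
    rw [← h1]
    refine Finset.sum_congr rfl fun a _ => ?_
    rw [Fintype.sum_prod_type, Finset.sum_mul]
    refine Finset.sum_congr rfl fun b _ => ?_
    rw [Finset.sum_mul, Finset.sum_mul]
    refine Finset.sum_congr rfl fun e _ => ?_
    simp only [e0, e1, e2]
    ring
  funext q
  obtain ⟨a, b, e⟩ := q
  refine coeff_zero (D := fun e => c (a, b, e)) (fun y₂ => ?_) e
  refine coeff_zero (D := fun b => ∑ e : Fin m, c (a, b, e) * y₂ ^ (e : ℕ)) (fun y₁ => ?_) b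
  exact coeff_zero (D := fun a => ∑ b : Fin m, (∑ e : Fin m, c (a, b, e) * y₂ ^ (e : ℕ)) *
    y₁ ^ (b : ℕ)) (fun y₀ => hval y₀ y₁ y₂) a

/-- The span of the `f ^ i g ^ j b_l`, `i, j < k`. -/
def spanK (f g : (Fin n → ℂ) → ℂ) {μ : ℕ} (b : Fin μ → (Fin n → ℂ) → ℂ) (k : ℕ) :
    Submodule ℂ ((Fin n → ℂ) → ℂ) :=
  Submodule.span ℂ (Set.range fun q : Fin k × Fin k × Fin μ =>
    fun x => f x ^ (q.1 : ℕ) * g x ^ (q.2.1 : ℕ) * b q.2.2 x)

theorem mem_spanK {f g : (Fin n → ℂ) → ℂ} {μ : ℕ} {b : Fin μ → (Fin n → ℂ) → ℂ} {k i j : ℕ}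
    (hi : i < k) (hj : j < k) (l : Fin μ) :
    (fun x => f x ^ i * g x ^ j * b l x) ∈ spanK f g b k :=
  Submodule.subset_span ⟨(⟨i, hi⟩, ⟨j, hj⟩, l), rfl⟩

theorem mul_f_mem {f g : (Fin n → ℂ) → ℂ} {μ : ℕ} {b : Fin μ → (Fin n → ℂ) → ℂ} {k : ℕ}
    {s : (Fin n → ℂ) → ℂ} (hs : s ∈ spanK f g b k) :
    (fun x => f x * s x) ∈ spanK f g b (k + 1) := by
  refine Submodule.span_induction (p := fun s _ => (fun x => f x * s x) ∈ spanK f g b (k + 1))
    ?_ ?_ ?_ ?_ hs
  · rintro _ ⟨q, rfl⟩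
    have := mem_spanK (f := f) (g := g) (b := b) (k := k + 1) (i := q.1 + 1) (j := q.2.1)
      (by omega) (by omega) q.2.2
    convert this using 1
    funext x
    ring
  · have : (fun x : Fin n → ℂ => f x * (0 : (Fin n → ℂ) → ℂ) x) = 0 := by
      funext x
      simp
    rw [this]
    exact Submodule.zero_mem _
  · intro u v _ _ hu hv
    have : (fun x => f x * (u + v) x) = (fun x => f x * u x) + fun x => f x * v x := by
      funext x
      simp only [Pi.add_apply]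
      ring
    rw [this]
    exact Submodule.add_mem _ hu hv
  · intro a u _ hu
    have : (fun x => f x * (a • u) x) = a • fun x => f x * u x := by
      funext x
      simp only [Pi.smul_apply, smul_eq_mul]
      ring
    rw [this]
    exact Submodule.smul_mem _ _ hu

theorem mul_g_mem {f g : (Fin n → ℂ) → ℂ} {μ : ℕ} {b : Fin μ → (Fin n → ℂ) → ℂ} {k : ℕ}
    {s : (Fin n → ℂ) → ℂ} (hs : s ∈ spanK f g b k) :
    (fun x => g x * s x) ∈ spanK f g b (k + 1) := by
  refine Submodule.span_induction (p := fun s _ => (fun x => g x * s x) ∈ spanK f g b (k + 1))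
    ?_ ?_ ?_ ?_ hs
  · rintro _ ⟨q, rfl⟩
    have := mem_spanK (f := f) (g := g) (b := b) (k := k + 1) (i := q.1) (j := q.2.1 + 1)
      (by omega) (by omega) q.2.2
    convert this using 1
    funext x
    ring
  · have : (fun x : Fin n → ℂ => g x * (0 : (Fin n → ℂ) → ℂ) x) = 0 := by
      funext x
      simp
    rw [this]
    exact Submodule.zero_mem _
  · intro u v _ _ hu hv
    have : (fun x => g x * (u + v) x) = (fun x => g x * u x) + fun x => g x * v x := by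
      funext x
      simp only [Pi.add_apply]
      ring
    rw [this]
    exact Submodule.add_mem _ hu hv
  · intro a u _ hu
    have : (fun x => g x * (a • u) x) = a • fun x => g x * u x := by
      funext x
      simp only [Pi.smul_apply, smul_eq_mul]
      ring
    rw [this]
    exact Submodule.smul_mem _ _ hu

theorem isBigO_of_zero {f : (Fin n → ℂ) → ℂ} (hf : AnalyticAt ℂ f 0) (f0 : f 0 = 0) :
    f =O[𝓝 0] fun x : Fin n → ℂ => ‖x‖ := by
  have h := hf.differentiableAt.isBigO_sub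
  simp only [f0, sub_zero] at h
  exact h.norm_right

/-- The expansion of germs modulo `O(‖x‖ ^ k)`. -/
theorem exists_expansion {f g : (Fin n → ℂ) → ℂ} (hf : AnalyticAt ℂ f 0) (hg : AnalyticAt ℂ g 0)
    (f0 : f 0 = 0) (g0 : g 0 = 0) {μ : ℕ} {b : Fin μ → (Fin n → ℂ) → ℂ}
    (H : ∀ h, Hol h → ∃ (c : Fin μ → ℂ) (h₁ h₂ : (Fin n → ℂ) → ℂ), Hol h₁ ∧ Hol h₂ ∧
      ∀ᶠ x in 𝓝 0, h x = ∑ i, c i * b i x + f x * h₁ x + g x * h₂ x) (k : ℕ) :
    ∀ h, Hol h → ∃ s ∈ spanK f g b k, (fun x => h x - s x) =O[𝓝 0] fun x => ‖x‖ ^ k := by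
  induction k with
  | zero =>
    intro h hh
    refine ⟨0, Submodule.zero_mem _, ?_⟩
    simp only [Pi.zero_apply, sub_zero, pow_zero]
    exact (hh.continuousAt.tendsto).isBigO_one ℝ
  | succ k ih =>
    intro h hh
    obtain ⟨c, h₁, h₂, a₁, a₂, he⟩ := H h hh
    obtain ⟨s₁, m₁, o₁⟩ := ih h₁ a₁
    obtain ⟨s₂, m₂, o₂⟩ := ih h₂ a₂
    refine ⟨(∑ i, c i • b i) + (fun x => f x * s₁ x) + (fun x => g x * s₂ x), ?_, ?_⟩
    · refine Submodule.add_mem _ (Submodule.add_mem _ ?_ (mul_f_mem m₁)) (mul_g_mem m₂)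
      refine Submodule.sum_mem _ fun i _ => Submodule.smul_mem _ _ ?_
      have := mem_spanK (f := f) (g := g) (b := b) (k := k + 1) (i := 0) (j := 0)
        (by omega) (by omega) i
      convert this using 1
      funext x
      ring
    · have h1 : (fun x => f x * (h₁ x - s₁ x) + g x * (h₂ x - s₂ x)) =O[𝓝 0]
          fun x : Fin n → ℂ => ‖x‖ ^ (k + 1) := by
        have e : (fun x : Fin n → ℂ => ‖x‖ ^ (k + 1)) = fun x => ‖x‖ * ‖x‖ ^ k := by
          funext x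
          ring
        rw [e]
        exact ((isBigO_of_zero hf f0).mul o₁).add ((isBigO_of_zero hg g0).mul o₂)
      refine h1.congr' ?_ (EventuallyEq.refl _ _)
      filter_upwards [he] with x hx
      rw [hx]
      simp only [Pi.add_apply, Finset.sum_apply, Pi.smul_apply, smul_eq_mul]
      ring

/-- The functions which are `O(‖x‖ ^ k)`. -/
def bigOK (n k : ℕ) : Submodule ℂ ((Fin n → ℂ) → ℂ) where
  carrier := {φ | φ =O[𝓝 0] fun x : Fin n → ℂ => ‖x‖ ^ k}
  add_mem' := fun ha hb => IsBigO.add ha hb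
  zero_mem' := isBigO_zero _ _
  smul_mem' := fun c _ ha => IsBigO.const_smul_left ha c

/-- **Two functions in three variables** generate an ideal of infinite colength. -/
theorem no_finite_two (hn : 3 ≤ n) {f g : (Fin n → ℂ) → ℂ} (hf : AnalyticAt ℂ f 0)
    (hg : AnalyticAt ℂ g 0) (f0 : f 0 = 0) (g0 : g 0 = 0) {μ : ℕ}
    {b : Fin μ → (Fin n → ℂ) → ℂ}
    (H : ∀ h, Hol h → ∃ (c : Fin μ → ℂ) (h₁ h₂ : (Fin n → ℂ) → ℂ), Hol h₁ ∧ Hol h₂ ∧
      ∀ᶠ x in 𝓝 0, h x = ∑ i, c i * b i x + f x * h₁ x + g x * h₂ x) : False := by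
  set m := 9 * μ + 1 with hm
  set i₀ : Fin n := ⟨0, by omega⟩ with hi₀
  set i₁ : Fin n := ⟨1, by omega⟩ with hi₁
  set i₂ : Fin n := ⟨2, by omega⟩ with hi₂
  have h01 : i₀ ≠ i₁ := by simp [hi₀, hi₁]
  have h02 : i₀ ≠ i₂ := by simp [hi₀, hi₂]
  have h12 : i₁ ≠ i₂ := by simp [hi₁, hi₂]
  set L := (bigOK n (3 * m)).mkQ.comp (polyL m i₀ i₁ i₂) with hL
  have hinj : Function.Injective L := by
    rw [← LinearMap.ker_eq_bot, LinearMap.ker_eq_bot']
    intro c hc
    rw [hL, LinearMap.comp_apply, Submodule.mkQ_apply, Submodule.Quotient.mk_eq_zero] at hc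
    exact polyL_zero h01 h02 h12 hc
  have hle : LinearMap.range L ≤ (spanK f g b (3 * m)).map (bigOK n (3 * m)).mkQ := by
    rintro _ ⟨c, rfl⟩
    have hol : Hol (polyL m i₀ i₁ i₂ c) := by
      have h1 : ∀ i : Fin n, AnalyticAt ℂ (fun x : Fin n → ℂ => x i) 0 := fun i =>
        (ContinuousLinearMap.proj (R := ℂ) (φ := fun _ : Fin n => ℂ) i).analyticAt _
      have h2 : AnalyticAt ℂ (fun x : Fin n → ℂ => ∑ q : Fin m × Fin m × Fin m,
          c q * (x i₀ ^ (q.1 : ℕ) * x i₁ ^ (q.2.1 : ℕ) * x i₂ ^ (q.2.2 : ℕ))) 0 :=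
        Finset.analyticAt_fun_sum _ fun q _ => analyticAt_const.mul
          ((((h1 i₀).pow _).mul ((h1 i₁).pow _)).mul ((h1 i₂).pow _))
      exact h2
    obtain ⟨s, hs, ho⟩ := exists_expansion hf hg f0 g0 H (3 * m) _ hol
    refine ⟨s, hs, ?_⟩
    rw [hL, LinearMap.comp_apply, Submodule.mkQ_apply, Submodule.mkQ_apply, eq_comm,
      Submodule.Quotient.eq]
    exact ho
  have : Module.Finite ℂ (spanK f g b (3 * m)) :=
    Module.Finite.span_of_finite ℂ (Set.finite_range _)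
  have h1 : Module.finrank ℂ (LinearMap.range L) ≤
      Module.finrank ℂ ((spanK f g b (3 * m)).map (bigOK n (3 * m)).mkQ) :=
    Submodule.finrank_mono hle
  have h2 : Module.finrank ℂ ((spanK f g b (3 * m)).map (bigOK n (3 * m)).mkQ) ≤
      Module.finrank ℂ (spanK f g b (3 * m)) := Submodule.finrank_map_le _ _
  have h3 : Module.finrank ℂ (spanK f g b (3 * m)) ≤
      Fintype.card (Fin (3 * m) × Fin (3 * m) × Fin μ) := finrank_range_le_card _
  have h4 : Module.finrank ℂ (LinearMap.range L) = m * (m * m) := by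
    rw [LinearMap.finrank_range_of_inj hinj, Module.finrank_fintype_fun_eq_card]
    simp
  have h5 : Fintype.card (Fin (3 * m) × Fin (3 * m) × Fin μ) = 3 * m * (3 * m * μ) := by
    simp
  rw [h4] at h1
  rw [h5] at h3
  have h6 : m * (m * m) ≤ 3 * m * (3 * m * μ) := h1.trans (h2.trans h3)
  have h7 : m * m * m ≤ m * m * (9 * μ) := by nlinarith
  have h8 : m ≤ 9 * μ := Nat.le_of_mul_le_mul_left h7 (by positivity)
  omega

/-- Division of a function of two variables with a zero. -/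
theorem exists_div2 {χ : ℂ × ℂ → ℂ} (hχ : AnalyticAt ℂ χ 0) (h0 : χ 0 = 0) :
    ∃ p q : ℂ × ℂ → ℂ, AnalyticAt ℂ p 0 ∧ AnalyticAt ℂ q 0 ∧
      ∀ᶠ v in 𝓝 (0 : ℂ × ℂ), χ v = v.1 * p v + v.2 * q v := by
  obtain ⟨Q, hQ, h⟩ := exists_division (0 : (ℂ × ℂ) →L[ℂ] (ℂ × ℂ)) (by simp) hχ
  refine ⟨fun v => Q v (1, 0), fun v => Q v (0, 1), ?_, ?_, ?_⟩
  · exact (ContinuousLinearMap.apply ℂ ℂ ((1, 0) : ℂ × ℂ)).analyticAt _ |>.comp hQ
  · exact (ContinuousLinearMap.apply ℂ ℂ ((0, 1) : ℂ × ℂ)).analyticAt _ |>.comp hQ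
  · filter_upwards [h] with v hv
    simp only [sub_zero, _root_.zero_apply, add_zero, h0] at hv
    have e : v = v.1 • ((1, 0) : ℂ × ℂ) + v.2 • ((0, 1) : ℂ × ℂ) := by
      refine Prod.ext ?_ ?_ <;> simp
    have h1 : Q v v = v.1 * Q v (1, 0) + v.2 * Q v (0, 1) := by
      conv_lhs => rw [e]
      rw [map_add, map_smul, map_smul, smul_eq_mul, smul_eq_mul, ← e]
    rw [hv, h1]

/-- **The critical points** of `ψ(f, g)` in at least three variables are not isolated if `ψ` has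
a critical point. -/
theorem grad_ne_zero (hn : 3 ≤ n) {f g : (Fin n → ℂ) → ℂ} {ψ : ℂ × ℂ → ℂ}
    (hf : AnalyticAt ℂ f 0) (hg : AnalyticAt ℂ g 0) (f0 : f 0 = 0) (g0 : g 0 = 0)
    (hψ : AnalyticAt ℂ ψ 0) (_h0 : ψ 0 = 0) {μ : ℕ}
    (hμ : Milnor (fun x => ψ (f x, g x)) μ) : fderiv ℂ ψ 0 ≠ 0 := by
  intro hz
  have hfg : AnalyticAt ℂ (fun x => (f x, g x)) 0 := hf.prod hg
  have hfg0 : (fun x => (f x, g x)) (0 : Fin n → ℂ) = 0 := by simp [f0, g0]
  have hfgt : Tendsto (fun x => (f x, g x)) (𝓝 (0 : Fin n → ℂ)) (𝓝 0) := by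
    have := hfg.continuousAt.tendsto
    simp only [f0, g0] at this
    exact this
  have hu : AnalyticAt ℂ (fun v => fderiv ℂ ψ v (1, 0)) 0 :=
    (ContinuousLinearMap.apply ℂ ℂ ((1, 0) : ℂ × ℂ)).analyticAt _ |>.comp hψ.fderiv
  have hv : AnalyticAt ℂ (fun v => fderiv ℂ ψ v (0, 1)) 0 :=
    (ContinuousLinearMap.apply ℂ ℂ ((0, 1) : ℂ × ℂ)).analyticAt _ |>.comp hψ.fderiv
  obtain ⟨p, q, hp, hq, hpq⟩ := exists_div2 hu (by simp [hz])
  obtain ⟨p', q', hp', hq', hpq'⟩ := exists_div2 hv (by simp [hz])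
  obtain ⟨b, hb, hB⟩ := hμ
  have comp : ∀ {χ : ℂ × ℂ → ℂ}, AnalyticAt ℂ χ 0 → AnalyticAt ℂ (fun x => χ (f x, g x)) 0 := by
    intro χ hχ
    have : AnalyticAt ℂ χ ((fun x => (f x, g x)) (0 : Fin n → ℂ)) := by rwa [hfg0]
    exact AnalyticAt.comp (g := χ) (f := fun x => (f x, g x)) this hfg
  -- the partial derivatives lie in the ideal of `f` and `g`
  have hpd : ∀ᶠ x in 𝓝 (0 : Fin n → ℂ), ∀ j, pd j (fun x => ψ (f x, g x)) x =
      f x * (p (f x, g x) * pd j f x + p' (f x, g x) * pd j g x) +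
      g x * (q (f x, g x) * pd j f x + q' (f x, g x) * pd j g x) := by
    filter_upwards [hf.eventually_analyticAt, hg.eventually_analyticAt,
      hfgt.eventually hψ.eventually_analyticAt, hfgt.eventually hpq, hfgt.eventually hpq']
      with x h1 h2 h3 h4 h5 j
    have h6 : HasFDerivAt (fun x => (f x, g x)) ((fderiv ℂ f x).prod (fderiv ℂ g x)) x :=
      h1.differentiableAt.hasFDerivAt.prodMk h2.differentiableAt.hasFDerivAt
    have h7 : HasFDerivAt (fun x => ψ (f x, g x)) _ x :=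
      HasFDerivAt.comp (g := ψ) x h3.differentiableAt.hasFDerivAt h6
    unfold pd
    rw [h7.fderiv]
    have h8 : fderiv ℂ ψ (f x, g x) (fderiv ℂ f x (Pi.single j 1), fderiv ℂ g x (Pi.single j 1)) =
        fderiv ℂ ψ (f x, g x) (1, 0) * fderiv ℂ f x (Pi.single j 1) +
        fderiv ℂ ψ (f x, g x) (0, 1) * fderiv ℂ g x (Pi.single j 1) := by
      have e : ((fderiv ℂ f x (Pi.single j 1), fderiv ℂ g x (Pi.single j 1)) : ℂ × ℂ) =
          (fderiv ℂ f x (Pi.single j 1)) • ((1, 0) : ℂ × ℂ) +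
          (fderiv ℂ g x (Pi.single j 1)) • ((0, 1) : ℂ × ℂ) := by
        refine Prod.ext ?_ ?_ <;> simp
      rw [e, map_add, map_smul, map_smul, smul_eq_mul, smul_eq_mul]
      ring
    have h9 : ((fderiv ℂ ψ (f x, g x)).comp ((fderiv ℂ f x).prod (fderiv ℂ g x)))
        (Pi.single j 1) =
        fderiv ℂ ψ (f x, g x) (fderiv ℂ f x (Pi.single j 1), fderiv ℂ g x (Pi.single j 1)) := rfl
    rw [h9, h8, h4, h5]
    ring
  have apd : ∀ {φ : (Fin n → ℂ) → ℂ}, AnalyticAt ℂ φ 0 → ∀ j, AnalyticAt ℂ (pd j φ) 0 :=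
    fun hφ j => analyticAt_apply hφ _
  refine no_finite_two (b := b) hn hf hg f0 g0 ?_
  intro h hh
  obtain ⟨c, ⟨a, ha, hac⟩, _⟩ := hB h hh
  refine ⟨c, fun x => ∑ j, a j x * (p (f x, g x) * pd j f x + p' (f x, g x) * pd j g x),
    fun x => ∑ j, a j x * (q (f x, g x) * pd j f x + q' (f x, g x) * pd j g x), ?_, ?_, ?_⟩
  · exact Finset.analyticAt_fun_sum _ fun j _ => (ha j).mul
      (((comp hp).mul (apd hf j)).add ((comp hp').mul (apd hg j)))
  · exact Finset.analyticAt_fun_sum _ fun j _ => (ha j).mul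
      (((comp hq).mul (apd hf j)).add ((comp hq').mul (apd hg j)))
  · filter_upwards [hac, hpd] with x h1 h2
    have h3 : ∑ j, a j x * pd j (fun x => ψ (f x, g x)) x =
        f x * (∑ j, a j x * (p (f x, g x) * pd j f x + p' (f x, g x) * pd j g x)) +
        g x * (∑ j, a j x * (q (f x, g x) * pd j f x + q' (f x, g x) * pd j g x)) := by
      rw [Finset.mul_sum, Finset.mul_sum, ← Finset.sum_add_distrib]
      refine Finset.sum_congr rfl fun j _ => ?_
      rw [h2 j]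
      ring
    rw [h3] at h1
    linear_combination h1

end Vale.Agent.P298.H974
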