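import Vale.Agent.P298.H974.NoBad

/-! For `F(x,t) = φ(f(x), g(x), t)` with constant Milnor number, `f` and `g` arbitrary, the
differentials of `f` and `g` are independent at the points of `F = 0` where `g ≠ 0`. -/

namespace Vale.Agent.P298.H974

open Filter Topology Metric

variable {n : ℕ}

/-- The arcs along which `F` and the minors are small compared with `g`. -/
theorem exists_arc2 {F : (Fin n → ℂ) × ℂ → ℂ} {f g : (Fin n → ℂ) → ℂ}
    (aF : AnalyticAt ℂ F (0, 0)) (af : AnalyticAt ℂ f 0) (ag : AnalyticAt ℂ g 0) (g0 : g 0 = 0)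
    {K : ℕ} (hK : K ≠ 0)
    (hcon : ∃ᶠ p in 𝓝 ((0 : Fin n → ℂ), (0 : ℂ)),
      g p.1 ≠ 0 ∧ F p = 0 ∧ ∀ i j, mnr f g p.1 i j = 0) :
    ∃ (σ : ℝ → (Fin n → ℂ) × ℂ) (X : ℂ → Fin n → ℂ), AnalyticAt ℝ σ 0 ∧ σ 0 = 0 ∧
      AnalyticAt ℂ X 0 ∧ X 0 = 0 ∧ (∀ᶠ s : ℝ in 𝓝[>] 0, X (s : ℂ) = (σ s).1) ∧
      ∃ a b : ℕ, a ≠ 0 ∧ a ≤ b ∧ ∃ c B : ℝ, 0 < c ∧ 0 < B ∧
        (∀ᶠ s : ℝ in 𝓝[>] 0, c * s ^ a ≤ ‖X (s : ℂ)‖ ∧ c * s ^ b ≤ ‖g (X (s : ℂ))‖ ∧
          ‖F (σ s)‖ ≤ B * s ^ (b * K) ∧ ∀ i j, ‖mnr f g (X (s : ℂ)) i j‖ ≤ B * s ^ (b * K)) := by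
  have hpos : ∀ᶠ s : ℝ in 𝓝[>] 0, 0 < s := self_mem_nhdsWithin
  let G : (Fin n → ℂ) × ℂ → ℝ := fun p =>
    Complex.normSq (F p) + ∑ q : Fin n × Fin n, Complex.normSq (mnr f g p.1 q.1 q.2) -
      (Complex.normSq (g p.1)) ^ K
  have hfst : AnalyticAt ℂ (fun p : (Fin n → ℂ) × ℂ => p.1) 0 := analyticAt_fst
  have hG : AnalyticAt ℝ G 0 := by
    refine AnalyticAt.sub (AnalyticAt.add (analyticAt_normSq aF) ?_) (AnalyticAt.pow ?_ K)
    · refine Finset.analyticAt_fun_sum _ fun q _ => analyticAt_normSq ?_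
      have h1 : AnalyticAt ℂ (fun x => mnr f g x q.1 q.2)
          ((fun p : (Fin n → ℂ) × ℂ => p.1) 0) := analyticAt_mnr af ag _ _
      exact AnalyticAt.comp (g := fun x => mnr f g x q.1 q.2)
        (f := fun p : (Fin n → ℂ) × ℂ => p.1) h1 hfst
    · refine analyticAt_normSq ?_
      have h1 : AnalyticAt ℂ g ((fun p : (Fin n → ℂ) × ℂ => p.1) 0) := ag
      exact AnalyticAt.comp (g := g) (f := fun p : (Fin n → ℂ) × ℂ => p.1) h1 hfst
  have hfreq : ∃ᶠ p in 𝓝 (0 : (Fin n → ℂ) × ℂ), G p < 0 := by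
    refine hcon.mono fun p hp => ?_
    obtain ⟨h1, h2, h3⟩ := hp
    have h4 : 0 < Complex.normSq (g p.1) := Complex.normSq_pos.2 h1
    have h5 := pow_pos h4 K
    change Complex.normSq (F p) + ∑ q : Fin n × Fin n, Complex.normSq (mnr f g p.1 q.1 q.2) -
      (Complex.normSq (g p.1)) ^ K < 0
    rw [h2]
    simp only [h3, map_zero, Finset.sum_const_zero, add_zero, zero_sub]
    linarith
  obtain ⟨σ, hσ, hσ0, hneg⟩ := H744.curve_selection hG hfreq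
  have hσ1 : AnalyticAt ℝ (fun s => (σ s).1) 0 := by
    have h1 : AnalyticAt ℝ (fun p : (Fin n → ℂ) × ℂ => p.1) (σ 0) := analyticAt_fst
    exact AnalyticAt.comp (g := fun p : (Fin n → ℂ) × ℂ => p.1) (f := σ) h1 hσ
  obtain ⟨X, hX, hXσ⟩ := exists_complexify hσ1
  have hX0 : X 0 = 0 := by
    have := hXσ.self_of_nhds
    rw [hσ0] at this
    simpa using this
  have hXσ' : ∀ᶠ s : ℝ in 𝓝[>] 0, X (s : ℂ) = (σ s).1 := nhdsWithin_le_nhds hXσ
  have hgne : ∀ᶠ s : ℝ in 𝓝[>] 0, g (X (s : ℂ)) ≠ 0 := by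
    filter_upwards [hXσ', hneg] with s h1 h2 h3
    rw [h1] at h3
    have h4 : Complex.normSq (F (σ s)) +
      ∑ q : Fin n × Fin n, Complex.normSq (mnr f g (σ s).1 q.1 q.2) -
      (Complex.normSq (g (σ s).1)) ^ K < 0 := h2
    rw [h3] at h4
    simp only [map_zero, zero_pow hK, sub_zero] at h4
    have h5 : 0 ≤ Complex.normSq (F (σ s)) := Complex.normSq_nonneg _
    have h6 : 0 ≤ ∑ q : Fin n × Fin n, Complex.normSq (mnr f g (σ s).1 q.1 q.2) :=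
      Finset.sum_nonneg fun _ _ => Complex.normSq_nonneg _
    linarith
  have hne : ∀ᶠ s : ℝ in 𝓝[>] 0, X (s : ℂ) ≠ 0 := by
    filter_upwards [hgne] with s h1 h2
    exact h1 (by rw [h2, g0])
  obtain ⟨a, Y, hY, hY0, hXY⟩ := exists_order hX hne.frequently
  obtain ⟨c, C, hc, hC, hb⟩ := order_bounds hY hY0 hXY
  have agX : AnalyticAt ℂ (fun z => g (X z)) 0 := by
    have : AnalyticAt ℂ g (X 0) := by rwa [hX0]
    exact AnalyticAt.comp (g := g) (f := X) this hX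
  obtain ⟨b, Z, hZ, hZ0, hgZ⟩ := exists_order agX hgne.frequently
  obtain ⟨cg, Cg, hcg, hCg, hbg⟩ := order_bounds hZ hZ0 hgZ
  have ha : a ≠ 0 := by
    rintro rfl
    have := hXY.self_of_nhds
    rw [hX0, pow_zero, one_smul] at this
    exact hY0 this.symm
  have hXt : Tendsto (fun s : ℝ => X (s : ℂ)) (𝓝[>] 0) (𝓝 0) := by
    have h1 := hX.continuousAt.tendsto
    rw [hX0] at h1
    exact h1.comp tendsto_pos
  have hab : a ≤ b := by
    obtain ⟨L, hL, hgL⟩ := (ag.differentiableAt.isBigO_sub).exists_pos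
    have hgL' := hgL.bound
    refine le_of_bounds (c := cg) (C := L * C) hcg (Eventually.frequently ?_)
    filter_upwards [hpos, hXt.eventually hgL', tendsto_pos.eventually hb,
      tendsto_pos.eventually hbg] with s h1 h2 h3 h4
    have hs : ‖(s : ℂ)‖ = s := by rw [Complex.norm_real, Real.norm_of_nonneg h1.le]
    rw [hs] at h3 h4
    rw [g0, sub_zero, sub_zero] at h2
    calc cg * s ^ b ≤ ‖g (X (s : ℂ))‖ := h4.1
      _ ≤ L * ‖X (s : ℂ)‖ := h2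
      _ ≤ L * (C * s ^ a) := mul_le_mul_of_nonneg_left h3.2 hL.le
      _ = _ := by ring
  have hc₀ : 0 < min c cg := lt_min hc hcg
  refine ⟨σ, X, hσ, hσ0, hX, hX0, hXσ', a, b, ha, hab, min c cg, Cg ^ K, hc₀, pow_pos hCg K, ?_⟩
  filter_upwards [hpos, hXσ', hneg, tendsto_pos.eventually hb, tendsto_pos.eventually hbg]
    with s h1 h2 h3 h4 h4'
  have hs : ‖(s : ℂ)‖ = s := by rw [Complex.norm_real, Real.norm_of_nonneg h1.le]
  rw [hs] at h4 h4'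
  have h5 : Complex.normSq (F (σ s)) +
      ∑ q : Fin n × Fin n, Complex.normSq (mnr f g (σ s).1 q.1 q.2) -
      (Complex.normSq (g (σ s).1)) ^ K < 0 := h3
  rw [← h2] at h5
  have h7 : (Complex.normSq (g (X (s : ℂ)))) ^ K ≤ (Cg ^ K * s ^ (b * K)) ^ 2 := by
    rw [← Complex.sq_norm]
    calc (‖g (X (s : ℂ))‖ ^ 2) ^ K ≤ ((Cg * s ^ b) ^ 2) ^ K :=
          pow_le_pow_left₀ (by positivity) (pow_le_pow_left₀ (norm_nonneg _) h4'.2 2) K
      _ = (Cg ^ K * s ^ (b * K)) ^ 2 := by ring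
  have h8 : 0 ≤ Cg ^ K * s ^ (b * K) := by positivity
  refine ⟨(mul_le_mul_of_nonneg_right (min_le_left _ _) (by positivity)).trans h4.1,
    (mul_le_mul_of_nonneg_right (min_le_right _ _) (by positivity)).trans h4'.1, ?_,
    fun i j => ?_⟩
  · rw [← pow_le_pow_iff_left₀ (norm_nonneg _) h8 two_ne_zero, Complex.sq_norm]
    have h9 : 0 ≤ ∑ q : Fin n × Fin n, Complex.normSq (mnr f g (X (s : ℂ)) q.1 q.2) :=
      Finset.sum_nonneg fun _ _ => Complex.normSq_nonneg _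
    linarith
  · rw [← pow_le_pow_iff_left₀ (norm_nonneg _) h8 two_ne_zero]
    exact normSq_le_of_sum (a := fun q : Fin n × Fin n => mnr f g (X (s : ℂ)) q.1 q.2)
      (Complex.normSq_nonneg (F (σ s))) (by linarith) (i, j)

/-- **No critical arcs on the surfaces outside** `g = 0`. -/
theorem no_bad2 {F : (Fin n → ℂ) × ℂ → ℂ} {f g : (Fin n → ℂ) → ℂ}
    {α β : (Fin n → ℂ) × ℂ → ℂ}
    (aF : AnalyticAt ℂ F (0, 0)) (af : AnalyticAt ℂ f 0) (ag : AnalyticAt ℂ g 0)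
    (f0 : f 0 = 0) (g0 : g 0 = 0) (F0 : ∀ᶠ t in 𝓝 (0 : ℂ), F (0, t) = 0)
    (hα : ContinuousAt α (0, 0)) (hβ : ContinuousAt β (0, 0))
    (hd : ∀ᶠ p in 𝓝 ((0 : Fin n → ℂ), (0 : ℂ)), ∀ v,
      dX F p v = α p * fderiv ℂ f p.1 v + β p * fderiv ℂ g p.1 v)
    {m : ℕ} {C₁ : ℝ} (L1 : ∀ᶠ p in 𝓝 ((0 : Fin n → ℂ), (0 : ℂ)),
      ‖p.1‖ ^ m ≤ C₁ * ∑ i, ‖dX F p (Pi.single i 1)‖) :
    ∀ᶠ p in 𝓝 ((0 : Fin n → ℂ), (0 : ℂ)), g p.1 ≠ 0 → F p = 0 → ∃ i j, mnr f g p.1 i j ≠ 0 := by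
  by_contra hcon
  have hcon' : ∃ᶠ p in 𝓝 ((0 : Fin n → ℂ), (0 : ℂ)),
      g p.1 ≠ 0 ∧ F p = 0 ∧ ∀ i j, mnr f g p.1 i j = 0 := by
    rw [not_eventually] at hcon
    refine hcon.mono fun p hp => ?_
    push Not at hp
    exact hp
  set K := m + 3 with hK
  obtain ⟨σ, X, hσ, hσ0, hX, hX0, hXσ, a, b, ha, hab, c, B, hc, hB, hb⟩ :=
    exists_arc2 aF af ag g0 (K := K) (by omega) hcon'
  have ha1 : 1 ≤ a := Nat.one_le_iff_ne_zero.2 ha
  have hexp : a * m + b + 2 ≤ b * K := by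
    have h1 := Nat.mul_le_mul_right m hab
    have h2 : b * K = b * m + 3 * b := by rw [hK]; ring
    omega
  have hpos : ∀ᶠ s : ℝ in 𝓝[>] 0, 0 < s := self_mem_nhdsWithin
  have hXt : Tendsto (fun s : ℝ => X (s : ℂ)) (𝓝[>] 0) (𝓝 0) := by
    have h1 := hX.continuousAt.tendsto
    rw [hX0] at h1
    exact h1.comp tendsto_pos
  -- the values of `f` and `g` along the arc
  have hXc : Tendsto X (𝓝 0) (𝓝 0) := by
    have h1 := hX.continuousAt.tendsto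
    rwa [hX0] at h1
  have afX : AnalyticAt ℂ (fun z => f (X z)) 0 := by
    have : AnalyticAt ℂ f (X 0) := by rwa [hX0]
    exact AnalyticAt.comp (g := f) (f := X) this hX
  have agX : AnalyticAt ℂ (fun z => g (X z)) 0 := by
    have : AnalyticAt ℂ g (X 0) := by rwa [hX0]
    exact AnalyticAt.comp (g := g) (f := X) this hX
  let w : ℂ → ℂ × ℂ := fun z => (f (X z), g (X z))
  have hw : AnalyticAt ℂ w 0 := afX.prod agX
  have hw0 : w 0 = 0 := by simp [w, hX0, f0, g0]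
  have hlow : ∀ᶠ s : ℝ in 𝓝[>] 0, c * s ^ b ≤ ‖w (s : ℂ)‖ := by
    filter_upwards [hb] with s h2
    exact h2.2.1.trans (norm_snd_le (w (s : ℂ)))
  obtain ⟨c₄, hc₄, hdw⟩ := deriv_lower hw hw0 hc hlow
  -- derivatives
  have hX' : AnalyticAt ℂ (deriv X) 0 := hX.deriv
  have hdf : ∀ᶠ z in 𝓝 (0 : ℂ), deriv w z =
      (fderiv ℂ f (X z) (deriv X z), fderiv ℂ g (X z) (deriv X z)) := by
    filter_upwards [hX.eventually_analyticAt, hXc.eventually af.eventually_analyticAt,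
      hXc.eventually ag.eventually_analyticAt] with z h1 h2 h3
    have h4 : HasDerivAt (fun z => f (X z)) (fderiv ℂ f (X z) (deriv X z)) z :=
      h2.differentiableAt.hasFDerivAt.comp_hasDerivAt z h1.differentiableAt.hasDerivAt
    have h5 : HasDerivAt (fun z => g (X z)) (fderiv ℂ g (X z) (deriv X z)) z :=
      h3.differentiableAt.hasFDerivAt.comp_hasDerivAt z h1.differentiableAt.hasDerivAt
    exact (h4.prodMk h5).deriv
  let h : ℂ × ℂ → ℂ := fun p => F (X p.1, p.2)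
  have hXp : AnalyticAt ℂ (fun p : ℂ × ℂ => (X p.1, p.2)) (0, 0) := by
    have h1 : AnalyticAt ℂ (fun p : ℂ × ℂ => X p.1) (0, 0) :=
      AnalyticAt.comp (g := X) (f := fun p : ℂ × ℂ => p.1) (x := ((0 : ℂ), (0 : ℂ))) hX
        analyticAt_fst
    exact h1.prod analyticAt_snd
  have hXp0 : (fun p : ℂ × ℂ => (X p.1, p.2)) (0, 0) = (0, 0) := by simp [hX0]
  have hXpt : Tendsto (fun p : ℂ × ℂ => (X p.1, p.2)) (𝓝 (0, 0)) (𝓝 (0, 0)) := by
    have h1 := hXp.continuousAt.tendsto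
    simp only [hX0] at h1
    exact h1
  have hh : AnalyticAt ℂ h (0, 0) := by
    have h1 : AnalyticAt ℂ F ((fun p : ℂ × ℂ => (X p.1, p.2)) (0, 0)) := by rwa [hXp0]
    exact AnalyticAt.comp (g := F) (f := fun p : ℂ × ℂ => (X p.1, p.2)) h1 hXp
  have hh0 : ∀ᶠ t in 𝓝 (0 : ℂ), h (0, t) = 0 := by
    filter_upwards [F0] with t ht
    change F (X 0, t) = 0
    rw [hX0, ht]
  have hfst : Tendsto (fun p : ℂ × ℂ => p.1) (𝓝 (0, 0)) (𝓝 0) :=
    (continuous_fst (X := ℂ) (Y := ℂ)).tendsto (0, 0)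
  have hdh : ∀ᶠ p in 𝓝 ((0 : ℂ), (0 : ℂ)), fderiv ℂ h p (1, 0) =
      dX F (X p.1, p.2) (deriv X p.1) := by
    filter_upwards [hXpt.eventually aF.eventually_analyticAt,
      hfst.eventually hX.eventually_analyticAt] with p h1 h2
    have h3 : HasFDerivAt (fun p : ℂ × ℂ => (X p.1, p.2))
        (((ContinuousLinearMap.toSpanSingleton ℂ (deriv X p.1)).comp
          (ContinuousLinearMap.fst ℂ ℂ ℂ)).prod (ContinuousLinearMap.snd ℂ ℂ ℂ)) p := by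
      have h4 : HasFDerivAt (fun p : ℂ × ℂ => X p.1)
          ((ContinuousLinearMap.toSpanSingleton ℂ (deriv X p.1)).comp
          (ContinuousLinearMap.fst ℂ ℂ ℂ)) p :=
        h2.differentiableAt.hasDerivAt.hasFDerivAt.comp p hasFDerivAt_fst
      exact h4.prodMk hasFDerivAt_snd
    have h5 : HasFDerivAt h ((fderiv ℂ F (X p.1, p.2)).comp
        (((ContinuousLinearMap.toSpanSingleton ℂ (deriv X p.1)).comp
          (ContinuousLinearMap.fst ℂ ℂ ℂ)).prod (ContinuousLinearMap.snd ℂ ℂ ℂ))) p :=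
      HasFDerivAt.comp (g := F) p h1.differentiableAt.hasFDerivAt h3
    rw [h5.fderiv, dX_apply]
    simp
  -- bounds of the data
  have bd : ∀ {φ : (Fin n → ℂ) × ℂ → ℂ}, ContinuousAt φ (0, 0) →
      ∃ A : ℝ, 0 ≤ A ∧ ∀ᶠ p in 𝓝 ((0 : Fin n → ℂ), (0 : ℂ)), ‖φ p‖ ≤ A := by
    intro φ hφ
    refine ⟨‖φ (0, 0)‖ + 1, by positivity, ?_⟩
    have := hφ.norm.eventually_lt (continuousAt_const (y := ‖φ (0, 0)‖ + 1)) (by simp)
    filter_upwards [this] with p hp using hp.le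
  have bdx : ∀ {φ : (Fin n → ℂ) → ℂ}, ContinuousAt φ 0 →
      ∃ A : ℝ, 0 ≤ A ∧ ∀ᶠ x in 𝓝 (0 : Fin n → ℂ), ‖φ x‖ ≤ A := by
    intro φ hφ
    refine ⟨‖φ 0‖ + 1, by positivity, ?_⟩
    have := hφ.norm.eventually_lt (continuousAt_const (y := ‖φ 0‖ + 1)) (by simp)
    filter_upwards [this] with p hp using hp.le
  obtain ⟨A₁, hA₁, hα'⟩ := bd hα
  obtain ⟨A₂, hA₂, hβ'⟩ := bd hβ
  choose Gf hGf hGf' using fun i : Fin n =>
    bdx (analyticAt_apply af (Pi.single i 1)).continuousAt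
  choose Gg hGg hGg' using fun i : Fin n =>
    bdx (analyticAt_apply ag (Pi.single i 1)).continuousAt
  have hXd : ∃ X₁ : ℝ, 0 ≤ X₁ ∧ ∀ᶠ z in 𝓝 (0 : ℂ), ‖deriv X z‖ ≤ X₁ := by
    refine ⟨‖deriv X 0‖ + 1, by positivity, ?_⟩
    have := hX'.continuousAt.norm.eventually_lt
      (continuousAt_const (y := ‖deriv X 0‖ + 1)) (by simp)
    filter_upwards [this] with p hp using hp.le
  obtain ⟨X₁, hX₁, hXd⟩ := hXd
  set A₀ := max A₁ A₂ with hA₀
  set G₀ := ∑ i, (Gf i + Gg i) with hG₀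
  have hA₀0 : 0 ≤ A₀ := hA₁.trans (le_max_left _ _)
  have hG₀0 : 0 ≤ G₀ := Finset.sum_nonneg fun i _ => add_nonneg (hGf i) (hGg i)
  have hGfi : ∀ i, Gf i ≤ G₀ := fun i => (le_add_of_nonneg_right (hGg i)).trans
    (Finset.single_le_sum (f := fun i => Gf i + Gg i)
      (fun i _ => add_nonneg (hGf i) (hGg i)) (Finset.mem_univ i))
  have hGgi : ∀ i, Gg i ≤ G₀ := fun i => (le_add_of_nonneg_left (hGf i)).trans
    (Finset.single_le_sum (f := fun i => Gf i + Gg i)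
      (fun i _ => add_nonneg (hGf i) (hGg i)) (Finset.mem_univ i))
  set C₁' := max C₁ 1 with hC₁'
  have hC₁0 : 0 < C₁' := lt_of_lt_of_le one_pos (le_max_right _ _)
  set P := C₁' * (n * (A₀ * (n * (X₁ * B)))) with hP
  set Q := C₁' * (n * G₀) + 1 with hQ
  have hP0 : 0 ≤ P := by positivity
  have hQ0 : 0 < Q := by positivity
  set c₅ := c₄ * c ^ m with hc₅
  have hc₅0 : 0 < c₅ := by positivity
  -- the derivative is large
  have key : ∀ᶠ p : ℝ × ℂ in 𝓝 (0, 0), 0 < p.1 →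
      c₅ / (2 * Q) * p.1 ^ (a * m + b) ≤ ‖fderiv ℂ h ((p.1 : ℂ), p.2) (1, 0)‖ := by
    have t1 : Tendsto (fun p : ℝ × ℂ => p.1) (𝓝 (0, 0)) (𝓝 0) :=
      (continuous_fst (X := ℝ) (Y := ℂ)).tendsto (0, 0)
    have t2 : Tendsto (fun p : ℝ × ℂ => (X (p.1 : ℂ), p.2)) (𝓝 (0, 0)) (𝓝 (0, 0)) :=
      hXpt.comp tendsto_incl
    have t3 : Tendsto (fun p : ℝ × ℂ => X (p.1 : ℂ)) (𝓝 (0, 0)) (𝓝 0) :=
      (continuous_fst (X := Fin n → ℂ) (Y := ℂ)).tendsto (0, 0) |>.comp t2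
    have t4 : Tendsto (fun p : ℝ × ℂ => (p.1 : ℂ)) (𝓝 (0, 0)) (𝓝 0) :=
      hfst.comp tendsto_incl
    filter_upwards [t1.eventually (eventually_nhdsWithin_iff.1 hb),
      t1.eventually (eventually_nhdsWithin_iff.1 hdw),
      t1.eventually (eventually_nhdsWithin_iff.1
        (pow_small (c := c₅ / 2) (P := P) (by positivity) hP0)),
      tendsto_incl.eventually hdh, t2.eventually hd, t2.eventually L1, t2.eventually hα',
      t2.eventually hβ', t3.eventually (eventually_all.2 hGf'),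
      t3.eventually (eventually_all.2 hGg'), t4.eventually hXd, t4.eventually hdf]
      with p e1 e2 e3 e4 e5 e6 e7 e8 e9 e10 e11 e12 hp
    obtain ⟨e13, e14, e15, e16⟩ := e1 hp
    have e17 := e2 hp
    have e18 := e3 hp (b * K) (a * m + b) (by omega)
    set x := X (p.1 : ℂ) with hx
    set ξ := deriv X (p.1 : ℂ) with hξ
    set D := fderiv ℂ h ((p.1 : ℂ), p.2) (1, 0) with hD
    set u := fderiv ℂ f x ξ with hu
    set v := fderiv ℂ g x ξ with hv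
    have e19 : D = α (x, p.2) * u + β (x, p.2) * v := by rw [e4]; exact e5 ξ
    have e20 : u = ∑ j, ξ j * fderiv ℂ f x (Pi.single j 1) := apply_eq_sum _ _
    have e21 : v = ∑ j, ξ j * fderiv ℂ g x (Pi.single j 1) := apply_eq_sum _ _
    have e22 : ∀ i, ‖∑ j, ξ j * mnr f g x i j‖ ≤ n * (X₁ * (B * p.1 ^ (b * K))) := by
      intro i
      calc ‖∑ j, ξ j * mnr f g x i j‖ ≤ ∑ _j : Fin n, X₁ * (B * p.1 ^ (b * K)) := by
            refine (norm_sum_le _ _).trans (Finset.sum_le_sum fun j _ => ?_)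
            rw [norm_mul]
            exact mul_le_mul ((norm_le_pi_norm _ j).trans e11) (e16 i j) (norm_nonneg _) hX₁
        _ = _ := by simp
    have e23 : ∀ i, v * dX F (x, p.2) (Pi.single i 1) =
        α (x, p.2) * (∑ j, ξ j * mnr f g x i j) + D * fderiv ℂ g x (Pi.single i 1) := by
      intro i
      have : ∑ j, ξ j * mnr f g x i j =
          v * fderiv ℂ f x (Pi.single i 1) - u * fderiv ℂ g x (Pi.single i 1) := by
        rw [e20, e21, Finset.sum_mul, Finset.sum_mul, ← Finset.sum_sub_distrib]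
        refine Finset.sum_congr rfl fun j _ => ?_
        rw [mnr]
        ring
      have e5' := e5 (Pi.single i 1)
      rw [this, e19, e5']
      ring
    have e24 : ∀ i, u * dX F (x, p.2) (Pi.single i 1) =
        -(β (x, p.2) * (∑ j, ξ j * mnr f g x i j)) + D * fderiv ℂ f x (Pi.single i 1) := by
      intro i
      have : ∑ j, ξ j * mnr f g x i j =
          v * fderiv ℂ f x (Pi.single i 1) - u * fderiv ℂ g x (Pi.single i 1) := by
        rw [e20, e21, Finset.sum_mul, Finset.sum_mul, ← Finset.sum_sub_distrib]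
        refine Finset.sum_congr rfl fun j _ => ?_
        rw [mnr]
        ring
      have e5' := e5 (Pi.single i 1)
      rw [this, e19, e5']
      ring
    set S₀ := n * (X₁ * (B * p.1 ^ (b * K))) with hS₀
    have hS₀0 : 0 ≤ S₀ := by positivity
    have e25 : ∀ i, ‖v‖ * ‖dX F (x, p.2) (Pi.single i 1)‖ ≤ A₀ * S₀ + G₀ * ‖D‖ := by
      intro i
      rw [← norm_mul, e23 i]
      refine (norm_add_le _ _).trans ?_
      rw [norm_mul, norm_mul, mul_comm G₀]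
      refine add_le_add (mul_le_mul (e7.trans (le_max_left _ _)) (e22 i) (norm_nonneg _) hA₀0)
        (mul_le_mul_of_nonneg_left ((e10 i).trans (hGgi i)) (norm_nonneg _))
    have e26 : ∀ i, ‖u‖ * ‖dX F (x, p.2) (Pi.single i 1)‖ ≤ A₀ * S₀ + G₀ * ‖D‖ := by
      intro i
      rw [← norm_mul, e24 i]
      refine (norm_add_le _ _).trans ?_
      rw [norm_neg, norm_mul, norm_mul, mul_comm G₀]
      refine add_le_add (mul_le_mul (e8.trans (le_max_right _ _)) (e22 i) (norm_nonneg _) hA₀0)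
        (mul_le_mul_of_nonneg_left ((e9 i).trans (hGfi i)) (norm_nonneg _))
    have e27 : ∀ i, ‖deriv w (p.1 : ℂ)‖ * ‖dX F (x, p.2) (Pi.single i 1)‖ ≤
        A₀ * S₀ + G₀ * ‖D‖ := by
      intro i
      rw [e12]
      -- the norm on pairs is the maximum
      rw [Prod.norm_def]
      rcases max_choice ‖u‖ ‖v‖ with h' | h'
      · simp only [h']
        exact e26 i
      · simp only [h']
        exact e25 i
    have e28 : ‖deriv w (p.1 : ℂ)‖ * ∑ i, ‖dX F (x, p.2) (Pi.single i 1)‖ ≤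
        n * (A₀ * S₀ + G₀ * ‖D‖) := by
      rw [Finset.mul_sum]
      calc _ ≤ ∑ _i : Fin n, (A₀ * S₀ + G₀ * ‖D‖) := Finset.sum_le_sum fun i _ => e27 i
        _ = _ := by rw [Finset.sum_const, Finset.card_univ, Fintype.card_fin, nsmul_eq_mul]
    have hsum0 : 0 ≤ ∑ i, ‖dX F (x, p.2) (Pi.single i 1)‖ :=
      Finset.sum_nonneg fun _ _ => norm_nonneg _
    have e29 : (c * p.1 ^ a) ^ m ≤ C₁' * ∑ i, ‖dX F (x, p.2) (Pi.single i 1)‖ :=
      (pow_le_pow_left₀ (by positivity) e13 m).trans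
        (e6.trans (mul_le_mul_of_nonneg_right (le_max_left _ _) hsum0))
    have e30 : c₅ * p.1 ^ (a * m + b) ≤ C₁' * (n * (A₀ * S₀ + G₀ * ‖D‖)) := by
      calc c₅ * p.1 ^ (a * m + b) = (c₄ * p.1 ^ b) * (c * p.1 ^ a) ^ m := by
            rw [hc₅]; ring
        _ ≤ ‖deriv w (p.1 : ℂ)‖ * (C₁' * ∑ i, ‖dX F (x, p.2) (Pi.single i 1)‖) :=
            mul_le_mul e17 e29 (by positivity) (norm_nonneg _)
        _ = C₁' * (‖deriv w (p.1 : ℂ)‖ * ∑ i, ‖dX F (x, p.2) (Pi.single i 1)‖) := by ring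
        _ ≤ _ := mul_le_mul_of_nonneg_left e28 hC₁0.le
    have e31 : C₁' * (n * (A₀ * S₀ + G₀ * ‖D‖)) ≤
        c₅ / 2 * p.1 ^ (a * m + b) + Q * ‖D‖ := by
      have e32 : C₁' * (n * (A₀ * S₀ + G₀ * ‖D‖)) =
          P * p.1 ^ (b * K) + (C₁' * (n * G₀)) * ‖D‖ := by
        rw [hP, hS₀]; ring
      rw [e32]
      have e33 : (C₁' * (n * G₀)) * ‖D‖ ≤ Q * ‖D‖ :=
        mul_le_mul_of_nonneg_right (by rw [hQ]; linarith) (norm_nonneg _)
      linarith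
    have e34 : c₅ / 2 * p.1 ^ (a * m + b) ≤ Q * ‖D‖ := by linarith
    calc c₅ / (2 * Q) * p.1 ^ (a * m + b) = (c₅ / 2 * p.1 ^ (a * m + b)) / Q := by
          field_simp
      _ ≤ (Q * ‖D‖) / Q := div_le_div_of_nonneg_right e34 hQ0.le
      _ = ‖D‖ := by field_simp
  obtain ⟨c', hc', hlow'⟩ := lower_of_deriv hh hh0 (by positivity) key
  -- the contradiction
  have hσt : Tendsto (fun s : ℝ => (s, (σ s).2)) (𝓝[>] 0) (𝓝 (0, 0)) := by
    have h1 : ContinuousAt (fun s : ℝ => (s, (σ s).2)) 0 :=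
      continuousAt_id.prodMk (continuousAt_snd.comp hσ.continuousAt)
    have h2 := h1.tendsto
    rw [hσ0] at h2
    exact h2.mono_left nhdsWithin_le_nhds
  have hfin : b * K ≤ (a * m + b) + 1 := by
    refine le_of_bounds (c := c') (C := B) hc' (Eventually.frequently ?_)
    filter_upwards [hpos, hb, hXσ, hσt.eventually hlow'] with s h1 h2 h3 h4
    have h5 := h4 h1
    have h6 : h ((s : ℂ), (σ s).2) = F (σ s) := by
      change F (X (s : ℂ), (σ s).2) = F (σ s)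
      rw [h3]
    rw [h6] at h5
    exact h5.trans h2.2.2.1
  omega

/-- The norm of a form is bounded by the values at the basis vectors. -/
theorem norm_le_sum (L : (Fin n → ℂ) →L[ℂ] ℂ) : ‖L‖ ≤ ∑ i, ‖L (Pi.single i 1)‖ := by
  refine L.opNorm_le_bound (Finset.sum_nonneg fun _ _ => norm_nonneg _) fun v => ?_
  rw [apply_eq_sum L v, Finset.sum_mul]
  refine (norm_sum_le _ _).trans (Finset.sum_le_sum fun i _ => ?_)
  rw [norm_mul, mul_comm]
  exact mul_le_mul_of_nonneg_left (norm_le_pi_norm v i) (norm_nonneg _)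

/-- The chain rule for `φ(f(x), g(x), t)`. -/
theorem dX_comp3 {f g : (Fin n → ℂ) → ℂ} {φ : ℂ × ℂ × ℂ → ℂ} {p : (Fin n → ℂ) × ℂ}
    (hf : AnalyticAt ℂ f p.1) (hg : AnalyticAt ℂ g p.1)
    (hφ : AnalyticAt ℂ φ (f p.1, g p.1, p.2)) (v : Fin n → ℂ) :
    dX (fun q : (Fin n → ℂ) × ℂ => φ (f q.1, g q.1, q.2)) p v =
      fderiv ℂ φ (f p.1, g p.1, p.2) (1, 0, 0) * fderiv ℂ f p.1 v +
      fderiv ℂ φ (f p.1, g p.1, p.2) (0, 1, 0) * fderiv ℂ g p.1 v := by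
  have h1 : HasFDerivAt (fun p : (Fin n → ℂ) × ℂ => p.1) (ContinuousLinearMap.fst ℂ _ _) p :=
    hasFDerivAt_fst
  have h2 : HasFDerivAt (fun q : (Fin n → ℂ) × ℂ => f q.1)
      ((fderiv ℂ f p.1).comp (ContinuousLinearMap.fst ℂ _ _)) p :=
    hf.differentiableAt.hasFDerivAt.comp p h1
  have h3 : HasFDerivAt (fun q : (Fin n → ℂ) × ℂ => g q.1)
      ((fderiv ℂ g p.1).comp (ContinuousLinearMap.fst ℂ _ _)) p :=
    hg.differentiableAt.hasFDerivAt.comp p h1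
  have h4 : HasFDerivAt (fun q : (Fin n → ℂ) × ℂ => (f q.1, g q.1, q.2)) _ p :=
    h2.prodMk (h3.prodMk hasFDerivAt_snd)
  have h5 : HasFDerivAt (fun q : (Fin n → ℂ) × ℂ => φ (f q.1, g q.1, q.2)) _ p :=
    HasFDerivAt.comp (g := φ) p hφ.differentiableAt.hasFDerivAt h4
  rw [dX_apply, h5.fderiv]
  have h6 : fderiv ℂ φ (f p.1, g p.1, p.2) (fderiv ℂ f p.1 v, fderiv ℂ g p.1 v, 0) =
      fderiv ℂ φ (f p.1, g p.1, p.2) (1, 0, 0) * fderiv ℂ f p.1 v +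
      fderiv ℂ φ (f p.1, g p.1, p.2) (0, 1, 0) * fderiv ℂ g p.1 v := by
    have h7 : ((fderiv ℂ f p.1 v, fderiv ℂ g p.1 v, 0) : ℂ × ℂ × ℂ) =
        (fderiv ℂ f p.1 v) • ((1, 0, 0) : ℂ × ℂ × ℂ) +
          (fderiv ℂ g p.1 v) • ((0, 1, 0) : ℂ × ℂ × ℂ) := by
      simp
    rw [h7, map_add, map_smul, map_smul, smul_eq_mul, smul_eq_mul]
    ring
  rw [← h6]
  rfl

/-- **Independence of the differentials** of `f` and `g` on `φ_t(f, g) = 0` outside `g = 0`. -/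
theorem noBad {f g : (Fin n → ℂ) → ℂ} {φ : ℂ × ℂ × ℂ → ℂ}
    (hf : AnalyticAt ℂ f 0) (hg : AnalyticAt ℂ g 0) (f0 : f 0 = 0) (g0 : g 0 = 0)
    (hφ : AnalyticAt ℂ φ 0) (h0 : ∀ᶠ t in 𝓝 (0 : ℂ), φ (0, 0, t) = 0) {N : ℕ} {C : ℝ}
    (hN : ∀ᶠ p in 𝓝 ((0 : Fin n → ℂ), (0 : ℂ)),
      ‖p.1‖ ^ N ≤ C * ‖dX (fun q : (Fin n → ℂ) × ℂ => φ (f q.1, g q.1, q.2)) p‖) :
    ∀ᶠ p in 𝓝 ((0 : Fin n → ℂ), (0 : ℂ)), φ (f p.1, g p.1, p.2) = 0 → g p.1 ≠ 0 →
      ∃ v w, fderiv ℂ f p.1 v * fderiv ℂ g p.1 w - fderiv ℂ f p.1 w * fderiv ℂ g p.1 v ≠ 0 := by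
  set F : (Fin n → ℂ) × ℂ → ℂ := fun q => φ (f q.1, g q.1, q.2) with hF
  let pr : (Fin n → ℂ) × ℂ → ℂ × ℂ × ℂ := fun q => (f q.1, g q.1, q.2)
  have hpr0 : pr (0, 0) = 0 := by simp [pr, f0, g0]
  have hfst : AnalyticAt ℂ (fun p : (Fin n → ℂ) × ℂ => p.1) (0, 0) := analyticAt_fst
  have hpr : AnalyticAt ℂ pr (0, 0) := by
    have h1 : AnalyticAt ℂ f ((fun p : (Fin n → ℂ) × ℂ => p.1) (0, 0)) := hf
    have h2 : AnalyticAt ℂ g ((fun p : (Fin n → ℂ) × ℂ => p.1) (0, 0)) := hg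
    exact (AnalyticAt.comp (g := f) (f := fun p : (Fin n → ℂ) × ℂ => p.1) h1 hfst).prod
      ((AnalyticAt.comp (g := g) (f := fun p : (Fin n → ℂ) × ℂ => p.1) h2 hfst).prod
        analyticAt_snd)
  have hφ' : AnalyticAt ℂ φ (pr (0, 0)) := by rwa [hpr0]
  have aF : AnalyticAt ℂ F (0, 0) := AnalyticAt.comp (g := φ) (f := pr) hφ' hpr
  have F0 : ∀ᶠ t in 𝓝 (0 : ℂ), F (0, t) = 0 := by
    filter_upwards [h0] with t ht
    change φ (f 0, g 0, t) = 0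
    rw [f0, g0, ht]
  have hfstt : Tendsto (fun p : (Fin n → ℂ) × ℂ => p.1) (𝓝 (0, 0)) (𝓝 0) :=
    continuousAt_fst.tendsto
  have hprt : Tendsto pr (𝓝 (0, 0)) (𝓝 0) := by
    have h := hpr.continuousAt.tendsto
    rwa [hpr0] at h
  have hα : ∀ e : ℂ × ℂ × ℂ, ContinuousAt (fun p => fderiv ℂ φ (pr p) e)
      ((0 : Fin n → ℂ), (0 : ℂ)) := by
    intro e
    have h1 : ContinuousAt (fderiv ℂ φ) (pr (0, 0)) := hφ'.fderiv.continuousAt
    have h2 : ContinuousAt (fun p => fderiv ℂ φ (pr p)) ((0 : Fin n → ℂ), (0 : ℂ)) :=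
      ContinuousAt.comp (g := fderiv ℂ φ) (f := pr) h1 hpr.continuousAt
    exact h2.clm_apply continuousAt_const
  have hd : ∀ᶠ p in 𝓝 ((0 : Fin n → ℂ), (0 : ℂ)), ∀ v, dX F p v =
      fderiv ℂ φ (pr p) (1, 0, 0) * fderiv ℂ f p.1 v +
      fderiv ℂ φ (pr p) (0, 1, 0) * fderiv ℂ g p.1 v := by
    filter_upwards [hfstt.eventually hf.eventually_analyticAt,
      hfstt.eventually hg.eventually_analyticAt, hprt.eventually hφ.eventually_analyticAt]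
      with p h1 h2 h3 v
    exact dX_comp3 h1 h2 h3 v
  have L1 : ∀ᶠ p in 𝓝 ((0 : Fin n → ℂ), (0 : ℂ)),
      ‖p.1‖ ^ N ≤ |C| * ∑ i, ‖dX F p (Pi.single i 1)‖ := by
    filter_upwards [hN] with p hp
    refine hp.trans ((mul_le_mul_of_nonneg_right (le_abs_self C) (norm_nonneg _)).trans ?_)
    exact mul_le_mul_of_nonneg_left (norm_le_sum _) (abs_nonneg C)
  filter_upwards [no_bad2 aF hf hg f0 g0 F0 (hα (1, 0, 0)) (hα (0, 1, 0)) hd L1] with p hp h1 h2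
  obtain ⟨i, j, hij⟩ := hp h2 h1
  exact ⟨Pi.single i 1, Pi.single j 1, hij⟩

end Vale.Agent.P298.H974
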