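import Vale.Agent.P298.H974.NoBad

/-! The surfaces `φ_t(f, g) = 0` with constant Milnor number: independence of the differentials of
`φ_t(f, g)` and `g` along the surfaces. -/

namespace Vale.Agent.P298.H974

open Filter Topology Metric

variable {n : ℕ}

/-- The Łojasiewicz inequality for ideals of constant finite colength. -/
theorem loja {Λ : Type*} [NormedAddCommGroup Λ] [NormedSpace ℂ Λ]
    {k : ℕ} (l₀ : Λ) (φ : Fin k → (Fin n → ℂ) × Λ → ℂ)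
    (hφ : ∀ j, AnalyticAt ℂ (φ j) (0, l₀)) (N : ℕ)
    (hN : ∀ᶠ l in 𝓝 l₀, Colength (fun j => fun x => φ j (x, l)) N) :
    ∃ (m : ℕ) (C : ℝ), m ≠ 0 ∧ ∀ᶠ p in 𝓝 ((0 : Fin n → ℂ), l₀),
      ‖p.1‖ ^ m ≤ C * ∑ j, ‖φ j p‖ := by
  have ht : Tendsto (fun l : Λ => ((0 : Fin n → ℂ), l)) (𝓝 l₀) (𝓝 (0, l₀)) :=
    Continuous.tendsto (by fun_prop) l₀
  have h1 : ∀ᶠ l in 𝓝 l₀, ∀ j, AnalyticAt ℂ (φ j) (0, l) :=
    ht.eventually (eventually_all.2 fun j => (hφ j).eventually_analyticAt)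
  have hN' : ∀ᶠ l in 𝓝 l₀, HasColength (Set.range fun j => fun x => φ j (x, l)) N := by
    filter_upwards [h1, hN] with l hl hl'
    refine hasColength_of_colength (fun j => ?_) hl'
    have h2 : AnalyticAt ℂ (fun x : Fin n → ℂ => (x, l)) 0 :=
      analyticAt_id.prod analyticAt_const
    have h3 : AnalyticAt ℂ (φ j) ((fun x : Fin n → ℂ => (x, l)) 0) := hl j
    exact AnalyticAt.fun_comp (g := φ j) (f := fun x : Fin n → ℂ => (x, l)) h3 h2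
  exact semicontinuity l₀ φ hφ N hN'

/-- The inequality for a constant Milnor number. -/
theorem loja_milnor {r : ℝ} (hr : 0 < r) {F : (Fin n → ℂ) → ℂ → ℂ}
    (aF : AnalyticAt ℂ (fun p : (Fin n → ℂ) × ℂ => F p.1 p.2) (0, 0)) {μ : ℕ}
    (hμ : ∀ t ∈ ball (0 : ℂ) r, Milnor (F · t) μ) :
    ∃ (m : ℕ) (C : ℝ), m ≠ 0 ∧ ∀ᶠ p in 𝓝 ((0 : Fin n → ℂ), (0 : ℂ)),
      ‖p.1‖ ^ m ≤ C * ∑ i, ‖dX (fun p : (Fin n → ℂ) × ℂ => F p.1 p.2) p (Pi.single i 1)‖ := by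
  have hnr : ∀ᶠ t in 𝓝 (0 : ℂ), t ∈ ball (0 : ℂ) r := isOpen_ball.mem_nhds (mem_ball_self hr)
  obtain ⟨m, C, hm, h⟩ := loja (0 : ℂ)
    (fun (i : Fin n) (p : (Fin n → ℂ) × ℂ) => pd i (fun x => F x p.2) p.1)
    (fun i => analyticAt_pd (G := F) aF i) μ (hnr.mono fun t ht => hμ t ht)
  refine ⟨m, C, hm, ?_⟩
  filter_upwards [h, aF.eventually_analyticAt] with p hp h1
  refine hp.trans_eq ?_
  congr 1
  refine Finset.sum_congr rfl fun i _ => ?_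
  rw [pd_eq_dX h1]

/-- The inequality for an isolated complete intersection singularity of dimension one. -/
theorem loja_icis {f g : (Fin 3 → ℂ) → ℂ} (af : AnalyticAt ℂ f 0) (ag : AnalyticAt ℂ g 0) {d : ℕ}
    (h : Colength ![f, g, minor2 0 1 f g, minor2 0 2 f g, minor2 1 2 f g] d) :
    ∃ (m : ℕ) (C : ℝ), m ≠ 0 ∧ ∀ᶠ x in 𝓝 (0 : Fin 3 → ℂ),
      ‖x‖ ^ m ≤ C * (‖f x‖ + ‖g x‖ + ∑ q : Fin 3 × Fin 3, ‖mnr f g x q.1 q.2‖) := by
  have hfst : AnalyticAt ℂ (fun p : (Fin 3 → ℂ) × ℂ => p.1) (0, 0) := analyticAt_fst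
  have hs : ∀ s : (Fin 3 → ℂ) → ℂ, AnalyticAt ℂ s 0 →
      AnalyticAt ℂ (fun p : (Fin 3 → ℂ) × ℂ => s p.1) (0, 0) := by
    intro s hs
    have h1 : AnalyticAt ℂ s ((fun p : (Fin 3 → ℂ) × ℂ => p.1) (0, 0)) := hs
    exact AnalyticAt.comp (g := s) (f := fun p : (Fin 3 → ℂ) × ℂ => p.1) h1 hfst
  obtain ⟨m, C, hm, hl⟩ := loja (0 : ℂ)
    (fun (j : Fin 5) (p : (Fin 3 → ℂ) × ℂ) =>
      (![f, g, minor2 0 1 f g, minor2 0 2 f g, minor2 1 2 f g] j) p.1)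
    (fun j => hs _ (by
      fin_cases j
      · exact af
      · exact ag
      · exact analyticAt_mnr af ag 0 1
      · exact analyticAt_mnr af ag 0 2
      · exact analyticAt_mnr af ag 1 2)) d (Eventually.of_forall fun _ => h)
  refine ⟨m, |C|, hm, ?_⟩
  have ht : Tendsto (fun x : Fin 3 → ℂ => (x, (0 : ℂ))) (𝓝 0) (𝓝 (0, 0)) :=
    Continuous.tendsto (by fun_prop) 0
  filter_upwards [ht.eventually hl] with x hx
  have e0 : ∀ i j, minor2 i j f g x = mnr f g x i j := fun i j => rfl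
  have hsum : ∑ j : Fin 5, ‖(![f, g, minor2 0 1 f g, minor2 0 2 f g, minor2 1 2 f g] j) x‖ =
      ‖f x‖ + ‖g x‖ + ‖mnr f g x 0 1‖ + ‖mnr f g x 0 2‖ + ‖mnr f g x 1 2‖ := by
    rw [Fin.sum_univ_five]
    rfl
  have hsum' : ∑ q : Fin 3 × Fin 3, ‖mnr f g x q.1 q.2‖ ≥
      ‖mnr f g x 0 1‖ + ‖mnr f g x 0 2‖ + ‖mnr f g x 1 2‖ := by
    rw [Fintype.sum_prod_type]
    simp only [Fin.sum_univ_three]
    have := fun i j => norm_nonneg (mnr f g x i j)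
    linarith [this 0 0, this 1 0, this 1 1, this 2 0, this 2 1, this 2 2]
  have hx' : ‖x‖ ^ m ≤ C *
      ∑ j : Fin 5, ‖(![f, g, minor2 0 1 f g, minor2 0 2 f g, minor2 1 2 f g] j) x‖ := hx
  rw [hsum] at hx'
  refine hx'.trans ?_
  have h0 : 0 ≤ ‖f x‖ + ‖g x‖ + ‖mnr f g x 0 1‖ + ‖mnr f g x 0 2‖ + ‖mnr f g x 1 2‖ := by
    positivity
  refine (mul_le_mul_of_nonneg_right (le_abs_self C) h0).trans ?_
  exact mul_le_mul_of_nonneg_left (by linarith) (abs_nonneg C)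

/-- The family `f_t = φ_t(f, g)`. -/
def cmp (φ : (Fin 2 → ℂ) → ℂ → ℂ) (f g : (Fin n → ℂ) → ℂ) (p : (Fin n → ℂ) × ℂ) : ℂ :=
  φ ![f p.1, g p.1] p.2

/-- The map `(x, t) ↦ (f(x), g(x), t)`. -/
def pr (f g : (Fin n → ℂ) → ℂ) (p : (Fin n → ℂ) × ℂ) : (Fin 2 → ℂ) × ℂ :=
  (![f p.1, g p.1], p.2)

theorem analyticAt_vec {f g : (Fin n → ℂ) → ℂ} {x : Fin n → ℂ} (hf : AnalyticAt ℂ f x)
    (hg : AnalyticAt ℂ g x) : AnalyticAt ℂ (fun x => ![f x, g x]) x := by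
  refine AnalyticAt.pi fun i => ?_
  fin_cases i
  · exact hf
  · exact hg

theorem analyticAt_pr {f g : (Fin n → ℂ) → ℂ} {p : (Fin n → ℂ) × ℂ} (hf : AnalyticAt ℂ f p.1)
    (hg : AnalyticAt ℂ g p.1) : AnalyticAt ℂ (pr f g) p := by
  have h1 : AnalyticAt ℂ (fun p : (Fin n → ℂ) × ℂ => p.1) p := analyticAt_fst
  have h2 : AnalyticAt ℂ (fun x => ![f x, g x]) ((fun p : (Fin n → ℂ) × ℂ => p.1) p) :=
    analyticAt_vec hf hg
  exact (AnalyticAt.comp (g := fun x => ![f x, g x]) (f := fun p : (Fin n → ℂ) × ℂ => p.1)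
    h2 h1).prod analyticAt_snd

/-- The chain rule. -/
theorem dX_cmp {φ : (Fin 2 → ℂ) → ℂ → ℂ} {f g : (Fin n → ℂ) → ℂ} {p : (Fin n → ℂ) × ℂ}
    (hφ : AnalyticAt ℂ (fun q : (Fin 2 → ℂ) × ℂ => φ q.1 q.2) (pr f g p))
    (hf : AnalyticAt ℂ f p.1) (hg : AnalyticAt ℂ g p.1) (v : Fin n → ℂ) :
    dX (cmp φ f g) p v =
      dX (fun q : (Fin 2 → ℂ) × ℂ => φ q.1 q.2) (pr f g p) (Pi.single 0 1) * fderiv ℂ f p.1 v +
      dX (fun q : (Fin 2 → ℂ) × ℂ => φ q.1 q.2) (pr f g p) (Pi.single 1 1) * fderiv ℂ g p.1 v := by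
  have h1 : HasFDerivAt (fun p : (Fin n → ℂ) × ℂ => p.1) (ContinuousLinearMap.fst ℂ _ _) p :=
    hasFDerivAt_fst
  have h2 : HasFDerivAt (fun p : (Fin n → ℂ) × ℂ => ![f p.1, g p.1])
      (ContinuousLinearMap.pi ![(fderiv ℂ f p.1).comp (ContinuousLinearMap.fst ℂ _ _),
        (fderiv ℂ g p.1).comp (ContinuousLinearMap.fst ℂ _ _)]) p := by
    rw [hasFDerivAt_pi']
    intro i
    fin_cases i
    · exact hf.differentiableAt.hasFDerivAt.comp p h1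
    · exact hg.differentiableAt.hasFDerivAt.comp p h1
  have h3 : HasFDerivAt (pr f g) _ p := h2.prodMk hasFDerivAt_snd
  have h4 : HasFDerivAt (cmp φ f g) _ p := hφ.differentiableAt.hasFDerivAt.comp p h3
  have h5 : dX (cmp φ f g) p v = dX (fun q : (Fin 2 → ℂ) × ℂ => φ q.1 q.2) (pr f g p)
      ![fderiv ℂ f p.1 v, fderiv ℂ g p.1 v] := by
    rw [dX_apply, dX_apply, h4.fderiv]
    rw [ContinuousLinearMap.comp_apply]
    congr 1
    refine Prod.ext ?_ rfl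
    funext i
    fin_cases i <;> rfl
  rw [h5, apply_eq_sum, Fin.sum_univ_two]
  simp only [Matrix.cons_val_zero, Matrix.cons_val_one]
  ring

theorem pr_zero {f g : (Fin n → ℂ) → ℂ} (f0 : f 0 = 0) (g0 : g 0 = 0) (t : ℂ) :
    pr f g (0, t) = (0, t) := by
  refine Prod.ext ?_ rfl
  funext i
  fin_cases i
  · exact f0
  · exact g0

theorem cmp_zero {φ : (Fin 2 → ℂ) → ℂ → ℂ} {f g : (Fin n → ℂ) → ℂ} (f0 : f 0 = 0)
    (g0 : g 0 = 0) (t : ℂ) : cmp φ f g (0, t) = φ 0 t := by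
  have h := pr_zero f0 g0 t
  have h1 : ![f 0, g 0] = (0 : Fin 2 → ℂ) := congrArg Prod.fst h
  unfold cmp
  simp only [h1]

theorem analyticAt_cmp {φ : (Fin 2 → ℂ) → ℂ → ℂ} {f g : (Fin n → ℂ) → ℂ} {p : (Fin n → ℂ) × ℂ}
    (hφ : AnalyticAt ℂ (fun q : (Fin 2 → ℂ) × ℂ => φ q.1 q.2) (pr f g p))
    (hf : AnalyticAt ℂ f p.1) (hg : AnalyticAt ℂ g p.1) : AnalyticAt ℂ (cmp φ f g) p :=
  AnalyticAt.comp (g := fun q : (Fin 2 → ℂ) × ℂ => φ q.1 q.2) (f := pr f g) hφ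
    (analyticAt_pr hf hg)

/-- A family which does not depend on `f` only through a critical point determines `f`. -/
theorem eq_zero_of_cmp {φ : (Fin 2 → ℂ) → ℂ → ℂ} {f g : (Fin n → ℂ) → ℂ}
    (aφ : AnalyticAt ℂ (fun q : (Fin 2 → ℂ) × ℂ => φ q.1 q.2) (0, 0))
    (φ0 : ∀ᶠ t in 𝓝 (0 : ℂ), φ 0 t = 0) (cf : ContinuousAt f 0) (f0 : f 0 = 0)
    (h0 : dX (fun q : (Fin 2 → ℂ) × ℂ => φ q.1 q.2) (0, 0) (Pi.single 0 1) ≠ 0) :
    ∀ᶠ p in 𝓝 ((0 : Fin n → ℂ), (0 : ℂ)), cmp φ f g p = 0 → g p.1 = 0 → f p.1 = 0 := by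
  set Φ : (Fin 2 → ℂ) × ℂ → ℂ := fun q => φ q.1 q.2 with hΦ
  set A : ℂ := dX Φ (0, 0) (Pi.single 0 1) with hA
  have hA0 : 0 < ‖A‖ := norm_pos_iff.2 h0
  have h1 := aφ.hasStrictFDerivAt.isLittleO
  have h2 := h1.bound (half_pos hA0)
  have ht : Tendsto (fun p : (Fin n → ℂ) × ℂ => ((![f p.1, 0], p.2), ((0 : Fin 2 → ℂ), p.2)))
      (𝓝 (0, 0)) (𝓝 (((0 : Fin 2 → ℂ), (0 : ℂ)), ((0 : Fin 2 → ℂ), (0 : ℂ)))) := by
    have c1 : ContinuousAt (fun p : (Fin n → ℂ) × ℂ => f p.1) (0, 0) :=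
      ContinuousAt.comp (g := f) (f := fun p : (Fin n → ℂ) × ℂ => p.1) (x := (0, 0)) cf
        continuousAt_fst
    have c2 : ContinuousAt (fun p : (Fin n → ℂ) × ℂ => (![f p.1, 0] : Fin 2 → ℂ)) (0, 0) := by
      refine continuousAt_pi.2 fun i => ?_
      fin_cases i
      · exact c1
      · exact continuousAt_const
    have c3 : ContinuousAt (fun p : (Fin n → ℂ) × ℂ =>
        ((![f p.1, 0], p.2), ((0 : Fin 2 → ℂ), p.2))) (0, 0) :=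
      (c2.prodMk continuousAt_snd).prodMk (continuousAt_const.prodMk continuousAt_snd)
    have c4 := c3.tendsto
    have c5 : (![f 0, 0] : Fin 2 → ℂ) = 0 := by
      funext i
      fin_cases i
      · exact f0
      · rfl
    simp only [c5] at c4
    exact c4
  have hs : Tendsto (fun p : (Fin n → ℂ) × ℂ => p.2) (𝓝 (0, 0)) (𝓝 0) :=
    continuousAt_snd.tendsto
  filter_upwards [ht.eventually h2, hs.eventually φ0] with p hp q0 q1 q2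
  have e1 : Φ (![f p.1, 0], p.2) = 0 := by
    have : cmp φ f g p = Φ (![f p.1, g p.1], p.2) := rfl
    rw [this, q2] at q1
    exact q1
  have e2 : Φ (0, p.2) = 0 := q0
  have e3 : ((![f p.1, 0], p.2) : (Fin 2 → ℂ) × ℂ) - (0, p.2) = (f p.1) • (Pi.single 0 1, 0) := by
    refine Prod.ext ?_ (by simp)
    funext i
    fin_cases i <;> simp
  simp only [e1, e2, e3] at hp
  rw [map_smul, smul_eq_mul, sub_self, zero_sub, norm_neg, norm_mul, norm_smul] at hp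
  have e4 : fderiv ℂ Φ (0, 0) (Pi.single 0 1, 0) = A := rfl
  rw [e4] at hp
  have e5 : ‖((Pi.single 0 1, 0) : (Fin 2 → ℂ) × ℂ)‖ ≤ 1 := by
    rw [Prod.norm_def, norm_zero]
    refine max_le ?_ zero_le_one
    refine (pi_norm_le_iff_of_nonneg zero_le_one).2 fun i => ?_
    fin_cases i <;> simp
  have e6 : ‖f p.1‖ * ‖A‖ ≤ ‖A‖ / 2 * ‖f p.1‖ := by
    refine hp.trans ?_
    refine mul_le_mul_of_nonneg_left ?_ (by positivity)
    calc ‖f p.1‖ * _ ≤ ‖f p.1‖ * 1 := mul_le_mul_of_nonneg_left e5 (norm_nonneg _)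
      _ = _ := mul_one _
  by_contra hne
  have := norm_pos_iff.2 hne
  nlinarith

/-- **The flag on the surfaces** `φ_t(f, g) = 0`. -/
theorem good_cmp {φ : (Fin 2 → ℂ) → ℂ → ℂ} {f g : (Fin n → ℂ) → ℂ}
    (aφ : AnalyticAt ℂ (fun q : (Fin 2 → ℂ) × ℂ => φ q.1 q.2) (0, 0))
    (φ0 : ∀ᶠ t in 𝓝 (0 : ℂ), φ 0 t = 0) (af : AnalyticAt ℂ f 0) (ag : AnalyticAt ℂ g 0)
    (f0 : f 0 = 0) (g0 : g 0 = 0)
    (h0 : dX (fun q : (Fin 2 → ℂ) × ℂ => φ q.1 q.2) (0, 0) (Pi.single 0 1) ≠ 0)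
    {m : ℕ} {C₁ : ℝ} (L1 : ∀ᶠ p in 𝓝 ((0 : Fin n → ℂ), (0 : ℂ)),
      ‖p.1‖ ^ m ≤ C₁ * ∑ i, ‖dX (cmp φ f g) p (Pi.single i 1)‖)
    {m₂ : ℕ} {C₂ : ℝ} (L2 : ∀ᶠ x in 𝓝 (0 : Fin n → ℂ),
      ‖x‖ ^ m₂ ≤ C₂ * (‖f x‖ + ‖g x‖ + ∑ q : Fin n × Fin n, ‖mnr f g x q.1 q.2‖)) :
    ∀ᶠ p in 𝓝 ((0 : Fin n → ℂ), (0 : ℂ)),
      (p.1 ≠ 0 → Function.Surjective (dX (cmp φ f g) p)) ∧
      (p.1 ≠ 0 → cmp φ f g p = 0 →
        Function.Surjective ((dX (cmp φ f g) p).prod (fderiv ℂ g p.1))) ∧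
      (cmp φ f g p = 0 → g p.1 = 0 → f p.1 = 0) := by
  have hpr0 : pr f g (0, 0) = (0, 0) := pr_zero f0 g0 0
  have aΦ : AnalyticAt ℂ (fun q : (Fin 2 → ℂ) × ℂ => φ q.1 q.2) (pr f g (0, 0)) := by
    rw [hpr0]
    exact aφ
  have aF : AnalyticAt ℂ (cmp φ f g) (0, 0) := analyticAt_cmp aΦ af ag
  have F0 : ∀ᶠ t in 𝓝 (0 : ℂ), cmp φ f g (0, t) = 0 := by
    filter_upwards [φ0] with t ht
    rw [cmp_zero f0 g0, ht]
  have hfst : Tendsto (fun p : (Fin n → ℂ) × ℂ => p.1) (𝓝 (0, 0)) (𝓝 0) :=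
    continuousAt_fst.tendsto
  have hprt : Tendsto (pr f g) (𝓝 (0, 0)) (𝓝 (0, 0)) := by
    have h := (analyticAt_pr (p := ((0 : Fin n → ℂ), (0 : ℂ))) af ag).continuousAt.tendsto
    rwa [hpr0] at h
  have hα : ∀ i : Fin 2, ContinuousAt (fun p => dX (fun q : (Fin 2 → ℂ) × ℂ => φ q.1 q.2)
      (pr f g p) (Pi.single i 1)) ((0 : Fin n → ℂ), (0 : ℂ)) := by
    intro i
    have h1 : ContinuousAt (fun q => dX (fun q : (Fin 2 → ℂ) × ℂ => φ q.1 q.2) q (Pi.single i 1))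
        (pr f g (0, 0)) := (analyticAt_dX_apply aΦ _).continuousAt
    exact ContinuousAt.comp (g := fun q => dX (fun q : (Fin 2 → ℂ) × ℂ => φ q.1 q.2) q
      (Pi.single i 1)) (f := pr f g) h1 (analyticAt_pr (p := (0, 0)) af ag).continuousAt
  have hd : ∀ᶠ p in 𝓝 ((0 : Fin n → ℂ), (0 : ℂ)), ∀ v, dX (cmp φ f g) p v =
      dX (fun q : (Fin 2 → ℂ) × ℂ => φ q.1 q.2) (pr f g p) (Pi.single 0 1) * fderiv ℂ f p.1 v +
      dX (fun q : (Fin 2 → ℂ) × ℂ => φ q.1 q.2) (pr f g p) (Pi.single 1 1) *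
        fderiv ℂ g p.1 v := by
    filter_upwards [hfst.eventually af.eventually_analyticAt,
      hfst.eventually ag.eventually_analyticAt, hprt.eventually aφ.eventually_analyticAt]
      with p h1 h2 h3 v
    exact dX_cmp h3 h1 h2 v
  have hnb := no_bad aF af ag f0 g0 F0 (hα 0) (hα 1) hd L1 L2
  have hα0 : ∀ᶠ p in 𝓝 ((0 : Fin n → ℂ), (0 : ℂ)),
      dX (fun q : (Fin 2 → ℂ) × ℂ => φ q.1 q.2) (pr f g p) (Pi.single 0 1) ≠ 0 := by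
    refine (hα 0).eventually_ne ?_
    rw [hpr0]
    exact h0
  filter_upwards [L1, hd, hnb, hα0, eq_zero_of_cmp (g := g) aφ φ0 af.continuousAt f0 h0]
    with p h1 h2 h3 h4 h5
  refine ⟨fun hne => ?_, fun hne hF => ?_, h5⟩
  · by_contra hc
    have hall : ∀ i, dX (cmp φ f g) p (Pi.single i 1) = 0 := by
      intro i
      by_contra hi
      exact hc (surjective_of_ne_zero hi)
    simp only [hall, norm_zero, Finset.sum_const_zero, mul_zero] at h1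
    exact absurd (le_antisymm h1 (by positivity)) (pow_ne_zero m (norm_ne_zero_iff.2 hne))
  · obtain ⟨i, j, hij⟩ := h3 hne hF
    refine surjective_of_minor (u := Pi.single i 1) (v := Pi.single j 1) ?_
    rw [h2, h2]
    unfold mnr at hij
    have := mul_ne_zero h4 hij
    convert this using 1
    ring

end Vale.Agent.P298.H974
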