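import Vale.Agent.P298.StmtFlag

/-!
# Trivialisations which respect a flag, and constant type of the pair surface > curve
-/

namespace Vale.Agent.P298

open Filter Topology Metric

/-- The flag `(f_t, e_t, h_t)` is topologically trivial by one trivialisation: after shrinking the
disk there is a homeomorphism `Φ(x, t) = (φ_t(x), t)` between open neighbourhoods of `{0} × Δ` with
`φ_t(0) = 0`, `f_t(φ_t(x)) = f_0(x)`, with `e_t(φ_t(x)) = e_0(x)` if `f_0(x) = 0`, and with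
`h_t(φ_t(x)) = h_0(x)` if `f_0(x) = e_0(x) = 0`. -/
def FlagTrivial {n : ℕ} (r : ℝ) (F E H : (Fin n → ℂ) → ℂ → ℂ) : Prop :=
  ∃ δ : ℝ, 0 < δ ∧ δ ≤ r ∧ ∃ Φ : OpenPartialHomeomorph ((Fin n → ℂ) × ℂ) ((Fin n → ℂ) × ℂ),
    (∀ p ∈ Φ.source, p.2 ∈ ball (0 : ℂ) δ) ∧
    (∀ t ∈ ball (0 : ℂ) δ, (0, t) ∈ Φ.source ∧ Φ (0, t) = (0, t)) ∧
    (∀ p ∈ Φ.source, (Φ p).2 = p.2 ∧ F (Φ p).1 p.2 = F p.1 0 ∧
      (F p.1 0 = 0 → E (Φ p).1 p.2 = E p.1 0) ∧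
      (F p.1 0 = 0 → E p.1 0 = 0 → H (Φ p).1 p.2 = H p.1 0))

/-- The embedded topological type of the pair consisting of the zero set of `f_t` and the common
zero set of `f_t` and `e_t` is constant: for all small `t` there is a homeomorphism `h` between
open neighbourhoods of `0` with `h(0) = 0` which takes the germ of `{f_0 = 0}` to the one of
`{f_t = 0}` and the germ of `{f_0 = e_0 = 0}` to the one of `{f_t = e_t = 0}`. -/
def ConstantPairType {n : ℕ} (r : ℝ) (F E : (Fin n → ℂ) → ℂ → ℂ) : Prop :=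
  ∃ δ : ℝ, 0 < δ ∧ δ ≤ r ∧ ∀ t ∈ ball (0 : ℂ) δ,
    ∃ h : OpenPartialHomeomorph (Fin n → ℂ) (Fin n → ℂ), 0 ∈ h.source ∧ h 0 = 0 ∧
      ∀ x ∈ h.source, (F (h x) t = 0 ↔ F x 0 = 0) ∧
        ((F (h x) t = 0 ∧ E (h x) t = 0) ↔ (F x 0 = 0 ∧ E x 0 = 0))

/-- Pointwise conditions on a flag in `ℂ³`, at the points `(x, t)` near the origin of `ℂ³ × ℂ` with
`x ≠ 0`: some partial derivative of `f_t` is not zero at `x`; if `f_t(x) = 0`, some `2 × 2` minor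
of the Jacobian matrix of `(f_t, e_t)` is not zero at `x`; if `f_t(x) = e_t(x) = 0`, the Jacobian
determinant of `(f_t, e_t, h_t)` at `x` and `h_t(x)` are not zero. -/
def RegularFlag (F E H : (Fin 3 → ℂ) → ℂ → ℂ) : Prop :=
  ∀ᶠ p : (Fin 3 → ℂ) × ℂ in 𝓝 (0, 0), p.1 ≠ 0 →
    (∃ i, pd i (F · p.2) p.1 ≠ 0) ∧
    (F p.1 p.2 = 0 → ∃ i j, minor2 i j (F · p.2) (E · p.2) p.1 ≠ 0) ∧
    (F p.1 p.2 = 0 → E p.1 p.2 = 0 → jac3 (F · p.2) (E · p.2) (H · p.2) p.1 ≠ 0 ∧ H p.1 p.2 ≠ 0)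

end Vale.Agent.P298
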