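import Vale.Agent.P298.H974.Flag
import Vale.Agent.P298.H974.Defs

/-!
# The pointwise criterion
-/

set_option linter.all false

open Set Metric Filter Topology

namespace Vale.Agent.P298

/-- **The pointwise criterion.** -/
theorem flagTrivial_of_regular {r : ℝ} (hr : 0 < r) {F E H : (Fin 3 → ℂ) → ℂ → ℂ}
    (hF : IsHolFamily r F) (hE : IsHolFamily r E) (hH : IsHolFamily r H)
    (hreg : RegularFlag F E H) : FlagTrivial r F E H := by
  have h0r : (0 : ℂ) ∈ ball (0 : ℂ) r := mem_ball_self hr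
  set Fu : (Fin 3 → ℂ) × ℂ → ℂ := fun p => F p.1 p.2 with hFu
  set Eu : (Fin 3 → ℂ) × ℂ → ℂ := fun p => E p.1 p.2 with hEu
  set Hu : (Fin 3 → ℂ) × ℂ → ℂ := fun p => H p.1 p.2 with hHu
  have aF : AnalyticAt ℂ Fu (0, 0) := (hF 0 h0r).1
  have aE : AnalyticAt ℂ Eu (0, 0) := (hE 0 h0r).1
  have aH : AnalyticAt ℂ Hu (0, 0) := (hH 0 h0r).1
  have hall := (aF.eventually_analyticAt.and (aE.eventually_analyticAt.and
    (aH.eventually_analyticAt.and hreg)))
  obtain ⟨ε, hε, hball⟩ := Metric.eventually_nhds_iff_ball.1 hall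
  set ρ : ℝ := min (ε / 2) (r / 2) with hρ
  have hρ0 : 0 < ρ := lt_min (by linarith) (by linarith)
  have hρε : ρ < ε := (min_le_left _ _).trans_lt (by linarith)
  have hρr : ρ < r := (min_le_right _ _).trans_lt (by linarith)
  have hbox : ∀ p : (Fin 3 → ℂ) × ℂ, ‖p.1‖ ≤ ρ → ‖p.2‖ ≤ ρ →
      p ∈ ball ((0 : Fin 3 → ℂ), (0 : ℂ)) ε := by
    intro p h1 h2
    rw [mem_ball, dist_eq_norm]
    refine lt_of_le_of_lt ?_ hρε
    rw [Prod.norm_def]
    simpa using ⟨h1, h2⟩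
  have hmem : ∀ p ∈ (closedBall (0 : Fin 3 → ℂ) ρ ×ˢ closedBall (0 : ℂ) ρ),
      p ∈ ball ((0 : Fin 3 → ℂ), (0 : ℂ)) ε := by
    rintro p ⟨h1, h2⟩
    exact hbox p (by simpa using h1) (by simpa using h2)
  have ht : ∀ t : ℂ, ‖t‖ ≤ ρ → t ∈ ball (0 : ℂ) r := by
    intro t h
    rw [mem_ball, dist_zero_right]
    linarith
  obtain ⟨e, e1, e2, e3, e4, e5⟩ := trivial_of_flag_strong (F := Fu) (E := Eu) (H := Hu) hρ0 hρ0
    (fun p hp => (hball p (hmem p hp)).1) (fun p hp => (hball p (hmem p hp)).2.1)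
    (fun p hp => (hball p (hmem p hp)).2.2.1)
    (fun t h => (hF t (ht t h)).2) (fun t h => (hE t (ht t h)).2) (fun t h => (hH t (ht t h)).2)
    (by
      intro p h1 h2 h3
      have h := hball p (hbox p h1 h2)
      obtain ⟨j, hj⟩ := (h.2.2.2 h3).1
      rw [pd_eq_dX h.1] at hj
      exact surjective_of_ne_zero hj)
    (by
      intro p h1 h2 h3 h5
      have h := hball p (hbox p h1 h2)
      obtain ⟨i, j, hij⟩ := (h.2.2.2 h3).2.1 h5
      unfold minor2 at hij
      rw [pd_eq_dX h.1, pd_eq_dX h.1, pd_eq_dX h.2.1, pd_eq_dX h.2.1] at hij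
      exact surjective_of_minor hij)
    (by
      intro p h1 h2 h3 h5 h6
      have h := hball p (hbox p h1 h2)
      have h4 := ((h.2.2.2 h3).2.2 h5 h6).1
      refine surjective_of_det ?_
      unfold jac3 at h4
      have e : (Matrix.of fun i j : Fin 3 => pd j
          (![(fun x => F x p.2), (fun x => E x p.2), (fun x => H x p.2)] i) p.1) =
          Matrix.of fun i j : Fin 3 => (![dX Fu p, dX Eu p, dX Hu p] i) (Pi.single j 1) := by
        ext i j
        rw [Matrix.of_apply, Matrix.of_apply]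
        fin_cases i
        · exact pd_eq_dX h.1 j
        · exact pd_eq_dX h.2.1 j
        · exact pd_eq_dX h.2.2.1 j
      rw [e] at h4
      exact h4)
    (by
      intro p h1 h2 h3 h4 h5
      have h := hball p (hbox p h1 h2)
      by_contra hne
      exact ((h.2.2.2 hne).2.2 h3 h4).2 h5)
  refine ⟨ρ / 2, by linarith, by linarith, e, ?_, ?_, ?_⟩
  · intro p hp
    rw [mem_ball, dist_zero_right]
    exact e1 p hp
  · intro t ht
    rw [mem_ball, dist_zero_right] at ht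
    exact ⟨e2 t ht, e4 t⟩
  · intro p hp
    obtain ⟨q1, q2, q3⟩ := e5 p hp
    simp only [hFu, hEu, hHu] at q1 q2 q3
    rw [e3 p] at q1 q2 q3
    exact ⟨e3 p, q1, q2, q3⟩

theorem FlagTrivial.topRightTrivial {n : ℕ} {r : ℝ} {F E H : (Fin n → ℂ) → ℂ → ℂ}
    (h : FlagTrivial r F E H) : TopRightTrivial r F := by
  obtain ⟨δ, h1, h2, Φ, h3, h4, h5⟩ := h
  exact ⟨δ, h1, h2, Φ, h3, h4, fun p hp => ⟨(h5 p hp).1, (h5 p hp).2.1⟩⟩

end Vale.Agent.P298
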