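import Vale.Agent.P298.H974.Main

/-!
# Surfaces through a fixed complete intersection curve: `f_t = f + a_t g`
-/

set_option linter.all false

open Set Metric Filter Topology

namespace Vale.Agent.P298

theorem inIdeal_trans {n k l : ℕ} {s : Fin k → (Fin n → ℂ) → ℂ} {s' : Fin l → (Fin n → ℂ) → ℂ}
    {u : (Fin n → ℂ) → ℂ} (h : ∀ j, InIdeal s (s' j)) (hu : InIdeal s' u) : InIdeal s u := by
  choose a ha1 ha2 using h
  obtain ⟨b, hb1, hb2⟩ := hu
  refine ⟨fun i x => ∑ j, b j x * a j i x, fun i => ?_, ?_⟩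
  · exact Finset.analyticAt_fun_sum _ fun j _ => (hb1 j).mul (ha1 j i)
  · filter_upwards [hb2, eventually_all.2 ha2] with x h1 h2
    rw [h1]
    simp_rw [h2, Finset.mul_sum, Finset.sum_mul]
    rw [Finset.sum_comm]
    refine Finset.sum_congr rfl fun i _ => Finset.sum_congr rfl fun j _ => by ring

theorem colength_congr {n k l : ℕ} {s : Fin k → (Fin n → ℂ) → ℂ}
    {s' : Fin l → (Fin n → ℂ) → ℂ} (h : ∀ j, InIdeal s (s' j)) (h' : ∀ j, InIdeal s' (s j))
    {d : ℕ} (hd : Colength s d) : Colength s' d := by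
  obtain ⟨b, hb1, hb2⟩ := hd
  refine ⟨b, hb1, fun f hf => ?_⟩
  obtain ⟨c, hc1, hc2⟩ := hb2 f hf
  exact ⟨c, inIdeal_trans h' hc1, fun c' hc' => hc2 c' (inIdeal_trans h hc')⟩

variable {f g h : (Fin 3 → ℂ) → ℂ}

theorem pd_fixed {a : (Fin 3 → ℂ) → ℂ} {x : Fin 3 → ℂ} (hf : AnalyticAt ℂ f x)
    (hg : AnalyticAt ℂ g x) (ha : AnalyticAt ℂ a x) (i : Fin 3) :
    pd i (fun y => f y + a y * g y) x = pd i f x + a x * pd i g x + g x * pd i a x := by
  unfold pd
  have h1 : HasFDerivAt (fun y => f y + a y * g y)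
      (fderiv ℂ f x + (a x • fderiv ℂ g x + g x • fderiv ℂ a x)) x :=
    hf.differentiableAt.hasFDerivAt.add
      (ha.differentiableAt.hasFDerivAt.mul hg.differentiableAt.hasFDerivAt)
  rw [h1.fderiv]
  simp only [ContinuousLinearMap.add_apply, ContinuousLinearMap.smul_apply, smul_eq_mul]
  ring

theorem jac3_fixed {a : (Fin 3 → ℂ) → ℂ} {x : Fin 3 → ℂ} (hf : AnalyticAt ℂ f x)
    (hg : AnalyticAt ℂ g x) (ha : AnalyticAt ℂ a x) :
    jac3 (fun y => f y + a y * g y) g h x = jac3 f g h x + g x * jac3 a g h x := by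
  have e := pd_fixed hf hg ha
  simp only [jac3, Matrix.det_fin_three, Matrix.of_apply]
  simp [e]
  ring

theorem hol_pd {u : (Fin 3 → ℂ) → ℂ} (hu : Hol u) (i : Fin 3) : Hol (pd i u) := by
  have h1 : AnalyticAt ℂ (fderiv ℂ u) 0 := AnalyticAt.fderiv hu
  have h2 : pd i u = fun x => (ContinuousLinearMap.apply ℂ ℂ (Pi.single i 1 : Fin 3 → ℂ))
      (fderiv ℂ u x) := by
    funext x
    rfl
  unfold Hol
  rw [h2]
  exact (ContinuousLinearMap.analyticAt _ _).comp h1

theorem hol_jac3 {u v w : (Fin 3 → ℂ) → ℂ} (hu : Hol u) (hv : Hol v) (hw : Hol w) :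
    Hol (jac3 u v w) := by
  have : jac3 u v w = fun x =>
      pd 0 u x * pd 1 v x * pd 2 w x - pd 0 u x * pd 2 v x * pd 1 w x -
      pd 1 u x * pd 0 v x * pd 2 w x + pd 1 u x * pd 2 v x * pd 0 w x +
      pd 2 u x * pd 0 v x * pd 1 w x - pd 2 u x * pd 1 v x * pd 0 w x := by
    funext x
    simp only [jac3, Matrix.det_fin_three, Matrix.of_apply]
    simp
  unfold Hol
  rw [this]
  have a0 := hol_pd hu; have a1 := hol_pd hv; have a2 := hol_pd hw
  unfold Hol at a0 a1 a2
  exact (((((((a0 0).mul (a1 1)).mul (a2 2)).sub (((a0 0).mul (a1 2)).mul (a2 1))).sub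
      (((a0 1).mul (a1 0)).mul (a2 2))).add (((a0 1).mul (a1 2)).mul (a2 0))).add
      (((a0 2).mul (a1 0)).mul (a2 1))).sub (((a0 2).mul (a1 1)).mul (a2 0))

theorem colength_fixed_curve {a : (Fin 3 → ℂ) → ℂ} (ha : Hol a) {c : ℕ}
    (hc : Colength ![f, g, h] c) : Colength ![fun x => f x + a x * g x, g, h] c := by
  refine colength_congr (s := ![f, g, h]) ?_ ?_ hc
  · intro j
    fin_cases j
    · refine ⟨![fun _ => 1, a, fun _ => 0], ?_, Eventually.of_forall fun x => ?_⟩
      · intro i
        fin_cases i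
        · exact analyticAt_const
        · exact ha
        · exact analyticAt_const
      · simp [Fin.sum_univ_three]
    · refine ⟨![fun _ => 0, fun _ => 1, fun _ => 0], ?_, Eventually.of_forall fun x => ?_⟩
      · intro i
        fin_cases i <;> exact analyticAt_const
      · simp [Fin.sum_univ_three]
    · refine ⟨![fun _ => 0, fun _ => 0, fun _ => 1], ?_, Eventually.of_forall fun x => ?_⟩
      · intro i
        fin_cases i <;> exact analyticAt_const
      · simp [Fin.sum_univ_three]
  · intro j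
    fin_cases j
    · refine ⟨![fun _ => 1, fun x => - a x, fun _ => 0], ?_, Eventually.of_forall fun x => ?_⟩
      · intro i
        fin_cases i
        · exact analyticAt_const
        · exact ha.neg
        · exact analyticAt_const
      · simp [Fin.sum_univ_three]
    · refine ⟨![fun _ => 0, fun _ => 1, fun _ => 0], ?_, Eventually.of_forall fun x => ?_⟩
      · intro i
        fin_cases i <;> exact analyticAt_const
      · simp [Fin.sum_univ_three]
    · refine ⟨![fun _ => 0, fun _ => 0, fun _ => 1], ?_, Eventually.of_forall fun x => ?_⟩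
      · intro i
        fin_cases i <;> exact analyticAt_const
      · simp [Fin.sum_univ_three]

theorem colength_fixed_jac {a : (Fin 3 → ℂ) → ℂ} (hf : Hol f) (hg : Hol g) (hh : Hol h)
    (ha : Hol a) {c : ℕ} (hc : Colength ![f, g, jac3 f g h] c) :
    Colength ![fun x => f x + a x * g x, g, jac3 (fun x => f x + a x * g x) g h] c := by
  have hJ : Hol (jac3 a g h) := hol_jac3 ha hg hh
  have hev : ∀ᶠ x in 𝓝 (0 : Fin 3 → ℂ), jac3 (fun y => f y + a y * g y) g h x =
      jac3 f g h x + g x * jac3 a g h x := by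
    filter_upwards [AnalyticAt.eventually_analyticAt hf, AnalyticAt.eventually_analyticAt hg,
      AnalyticAt.eventually_analyticAt ha] with x h1 h2 h3
    exact jac3_fixed h1 h2 h3
  refine colength_congr (s := ![f, g, jac3 f g h]) ?_ ?_ hc
  · intro j
    fin_cases j
    · refine ⟨![fun _ => 1, a, fun _ => 0], ?_, Eventually.of_forall fun x => ?_⟩
      · intro i
        fin_cases i
        · exact analyticAt_const
        · exact ha
        · exact analyticAt_const
      · simp [Fin.sum_univ_three]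
    · refine ⟨![fun _ => 0, fun _ => 1, fun _ => 0], ?_, Eventually.of_forall fun x => ?_⟩
      · intro i
        fin_cases i <;> exact analyticAt_const
      · simp [Fin.sum_univ_three]
    · refine ⟨![fun _ => 0, jac3 a g h, fun _ => 1], ?_, ?_⟩
      · intro i
        fin_cases i
        · exact analyticAt_const
        · exact hJ
        · exact analyticAt_const
      · filter_upwards [hev] with x hx
        have e : (![fun x => f x + a x * g x, g, jac3 (fun x => f x + a x * g x) g h] :
          Fin 3 → (Fin 3 → ℂ) → ℂ) 2 x = jac3 (fun x => f x + a x * g x) g h x := rfl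
        change jac3 (fun x => f x + a x * g x) g h x = _
        rw [hx]
        simp [Fin.sum_univ_three]
        ring
  · intro j
    fin_cases j
    · refine ⟨![fun _ => 1, fun x => - a x, fun _ => 0], ?_, Eventually.of_forall fun x => ?_⟩
      · intro i
        fin_cases i
        · exact analyticAt_const
        · exact ha.neg
        · exact analyticAt_const
      · simp [Fin.sum_univ_three]
    · refine ⟨![fun _ => 0, fun _ => 1, fun _ => 0], ?_, Eventually.of_forall fun x => ?_⟩
      · intro i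
        fin_cases i <;> exact analyticAt_const
      · simp [Fin.sum_univ_three]
    · refine ⟨![fun _ => 0, fun x => - jac3 a g h x, fun _ => 1], ?_, ?_⟩
      · intro i
        fin_cases i
        · exact analyticAt_const
        · exact hJ.neg
        · exact analyticAt_const
      · filter_upwards [hev] with x hx
        change jac3 f g h x = _
        simp only [Fin.sum_univ_three, Matrix.cons_val_zero, Matrix.cons_val_one, Matrix.cons_val]
        rw [hx]
        ring

/-- **Surfaces through a fixed complete intersection curve.** -/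
theorem flagTrivial_fixed_curve {r : ℝ} (hr : 0 < r) {a : (Fin 3 → ℂ) → ℂ → ℂ}
    (hf : Hol f) (hg : Hol g) (hh : Hol h) (f0 : f 0 = 0) (g0 : g 0 = 0) (h0 : h 0 = 0)
    (ha : ∀ t ∈ ball (0 : ℂ) r, AnalyticAt ℂ (fun p : (Fin 3 → ℂ) × ℂ => a p.1 p.2) (0, t))
    {μ m b c : ℕ}
    (h₁ : ∀ t ∈ ball (0 : ℂ) r, Milnor (fun x => f x + a x t * g x) μ)
    (h₂ : ∀ t ∈ ball (0 : ℂ) r, Colength ![fun x => f x + a x t * g x,
      minor2 0 1 (fun x => f x + a x t * g x) g, minor2 0 2 (fun x => f x + a x t * g x) g,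
      minor2 1 2 (fun x => f x + a x t * g x) g] m)
    (h₃ : Colength ![f, g, jac3 f g h] b) (h₄ : Colength ![f, g, h] c) :
    FlagTrivial r (fun x t => f x + a x t * g x) (fun x _ => g x) (fun x _ => h x) := by
  have hfst : ∀ t : ℂ, AnalyticAt ℂ (fun p : (Fin 3 → ℂ) × ℂ => p.1) (0, t) := fun t =>
    analyticAt_fst
  have lift : ∀ {u : (Fin 3 → ℂ) → ℂ}, Hol u → ∀ t : ℂ,
      AnalyticAt ℂ (fun p : (Fin 3 → ℂ) × ℂ => u p.1) (0, t) := by
    intro u hu t
    exact AnalyticAt.fun_comp (g := u) (f := fun p : (Fin 3 → ℂ) × ℂ => p.1) hu (hfst t)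
  have hslice : ∀ t ∈ ball (0 : ℂ) r, Hol (fun x => a x t) := by
    intro t ht
    have h2 : AnalyticAt ℂ (fun x : Fin 3 → ℂ => (x, t)) 0 := analyticAt_id.prod analyticAt_const
    exact AnalyticAt.fun_comp (g := fun p : (Fin 3 → ℂ) × ℂ => a p.1 p.2)
      (f := fun x : Fin 3 → ℂ => (x, t)) (ha t ht) h2
  refine flagTrivial_of_colength hr (μ := μ) (a := m) (b := b) (c := c) ?_ ?_ ?_ h₁ h₂ ?_ ?_
  · intro t ht
    refine ⟨((lift hf t).add ((ha t ht).mul (lift hg t))), ?_⟩
    simp [f0, g0]
  · intro t ht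
    exact ⟨lift hg t, g0⟩
  · intro t ht
    exact ⟨lift hh t, h0⟩
  · intro t ht
    exact colength_fixed_jac hf hg hh (hslice t ht) h₃
  · intro t ht
    exact colength_fixed_curve (hslice t ht) h₄

end Vale.Agent.P298
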