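import Vale.Agent.P298.Bdl.B1

/-!
# A trivialisation which respects the whole flag

Strong form of `trivial_of_flag`: the vector field is also tangent to the levels of `E` on `F = 0`
and to the levels of `H` on `F = E = 0`.
-/

set_option linter.all false

open Set Metric Filter Topology
open scoped NNReal ContDiff Manifold

namespace Vale.Agent.P298

variable {X : Type*} [NormedAddCommGroup X] [NormedSpace ℂ X] [FiniteDimensional ℂ X]

theorem trivial_of_flag_strong {F E H : X × ℂ → ℂ} {r η : ℝ} (hr : 0 < r) (hη : 0 < η)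
    (hF : AnalyticOnNhd ℂ F (closedBall 0 r ×ˢ closedBall 0 η))
    (hE : AnalyticOnNhd ℂ E (closedBall 0 r ×ˢ closedBall 0 η))
    (hH : AnalyticOnNhd ℂ H (closedBall 0 r ×ˢ closedBall 0 η))
    (hF0 : ∀ t : ℂ, ‖t‖ ≤ η → F (0, t) = 0) (hE0 : ∀ t : ℂ, ‖t‖ ≤ η → E (0, t) = 0)
    (hH0 : ∀ t : ℂ, ‖t‖ ≤ η → H (0, t) = 0)
    (P1 : ∀ p : X × ℂ, ‖p.1‖ ≤ r → ‖p.2‖ ≤ η → p.1 ≠ 0 → Function.Surjective (dX F p))
    (P2 : ∀ p : X × ℂ, ‖p.1‖ ≤ r → ‖p.2‖ ≤ η → p.1 ≠ 0 → F p = 0 →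
      Function.Surjective ((dX F p).prod (dX E p)))
    (P3 : ∀ p : X × ℂ, ‖p.1‖ ≤ r → ‖p.2‖ ≤ η → p.1 ≠ 0 → F p = 0 → E p = 0 →
      Function.Surjective ((dX F p).prod ((dX E p).prod (dX H p))))
    (P4 : ∀ p : X × ℂ, ‖p.1‖ ≤ r → ‖p.2‖ ≤ η → F p = 0 → E p = 0 → H p = 0 → p.1 = 0) :
    ∃ e : OpenPartialHomeomorph (X × ℂ) (X × ℂ),
      (∀ p ∈ e.source, ‖p.2‖ < η / 2) ∧ (∀ t : ℂ, ‖t‖ < η / 2 → (0, t) ∈ e.source) ∧
      (∀ p, (e p).2 = p.2) ∧ (∀ t, e (0, t) = (0, t)) ∧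
      (∀ p ∈ e.source, F (e p) = F (p.1, 0) ∧ (F (p.1, 0) = 0 → E (e p) = E (p.1, 0)) ∧
        (F (p.1, 0) = 0 → E (p.1, 0) = 0 → H (e p) = H (p.1, 0))) := by
  have : ProperSpace X := FiniteDimensional.proper ℂ X
  have : FiniteDimensional ℝ X := FiniteDimensional.complexToReal X
  set B : Set (X × ℂ) := closedBall 0 r ×ˢ closedBall 0 η with hB
  have hBc : IsCompact B := (isCompact_closedBall _ _).prod (isCompact_closedBall _ _)
  have hBmem : ∀ p : X × ℂ, p ∈ B ↔ ‖p.1‖ ≤ r ∧ ‖p.2‖ ≤ η := by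
    intro p
    simp [hB, mem_prod]
  have hFc : ContinuousOn F B := hF.continuousOn
  have hEc : ContinuousOn E B := hE.continuousOn
  have hHc : ContinuousOn H B := hH.continuousOn
  have hdc : ∀ {f : X × ℂ → ℂ}, AnalyticOnNhd ℂ f B → ∀ p ∈ B, ContinuousWithinAt (dX f) B p :=
    fun hf p hp => (contDiffAt_dX (hf p hp)).continuousAt.continuousWithinAt
  -- constants
  have hsmall : ∀ δ > 0, ∃ κ > 0, ∀ p ∈ B, ‖F p‖ ≤ κ → ‖E p‖ ≤ κ → ‖H p‖ ≤ κ → ‖p.1‖ < δ := by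
    intro δ hδ
    set S : Set (X × ℂ) := B ∩ {p | δ ≤ ‖p.1‖}
    have hS : IsCompact S := hBc.inter_right (isClosed_le continuous_const continuous_fst.norm)
    obtain ⟨κ, hκ, hκ'⟩ := exists_pos_of_good (B := B) hS inter_subset_left
      (a := fun p => max ‖F p‖ (max ‖E p‖ ‖H p‖))
      ((hFc.norm.sup (hEc.norm.sup hHc.norm)).mono inter_subset_left)
      (fun p _ => le_max_of_le_left (norm_nonneg _)) (good := fun _ => False) (by
        intro p hp h0
        exfalso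
        have h1 : ‖F p‖ ≤ 0 := (le_max_left _ _).trans h0.le
        have h2 : ‖E p‖ ≤ 0 := ((le_max_left _ _).trans (le_max_right _ _)).trans h0.le
        have h3 : ‖H p‖ ≤ 0 := ((le_max_right _ _).trans (le_max_right _ _)).trans h0.le
        have hb := (hBmem p).1 hp.1
        have := P4 p hb.1 hb.2 (norm_le_zero_iff.1 h1) (norm_le_zero_iff.1 h2)
          (norm_le_zero_iff.1 h3)
        have h4 : δ ≤ ‖p.1‖ := hp.2
        rw [this, norm_zero] at h4
        linarith)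
    refine ⟨κ, hκ, fun p hp h1 h2 h3 => ?_⟩
    by_contra hc
    exact hκ' p ⟨hp, not_lt.1 hc⟩ (max_le h1 (max_le h2 h3))
  have hpick : ∀ ε > 0, ∀ κ > 0, ∃ α β : ℝ, 0 < α ∧ α ≤ β ∧ β ≤ ε ∧ β ≤ κ ∧
      (∀ p ∈ B, ‖F p‖ ≤ β → ‖E p‖ ≤ β → ε / 2 ≤ ‖H p‖ → ‖H p‖ ≤ ε →
        Function.Surjective ((dX F p).prod ((dX E p).prod (dX H p)))) ∧
      (∀ p ∈ B, ‖F p‖ ≤ α → β / 2 ≤ ‖E p‖ → ‖E p‖ ≤ β → ‖H p‖ ≤ ε →
        Function.Surjective ((dX F p).prod (dX E p))) := by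
    intro ε hε κ hκ
    -- `β`
    have hcl2 : IsCompact (B ∩ {p | ε / 2 ≤ ‖H p‖ ∧ ‖H p‖ ≤ ε}) := by
      refine hBc.of_isClosed_subset ?_ inter_subset_left
      exact hHc.norm.preimage_isClosed_of_isClosed hBc.isClosed isClosed_Icc
    obtain ⟨β', hβ', hβ''⟩ := exists_pos_of_good (B := B) hcl2 inter_subset_left
      (a := fun p => max ‖F p‖ ‖E p‖)
      ((hFc.norm.sup hEc.norm).mono inter_subset_left)
      (fun p _ => le_max_of_le_left (norm_nonneg _))
      (good := fun p => Function.Surjective ((dX F p).prod ((dX E p).prod (dX H p)))) (by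
        intro p hp h0
        have h1 : ‖F p‖ ≤ 0 := (le_max_left _ _).trans h0.le
        have h2 : ‖E p‖ ≤ 0 := (le_max_right _ _).trans h0.le
        have hb := (hBmem p).1 hp.1
        have hne : p.1 ≠ 0 := by
          intro hz
          have : p = (0, p.2) := by rw [← hz]
          have h4 : ε / 2 ≤ ‖H p‖ := hp.2.1
          rw [this, hH0 _ hb.2, norm_zero] at h4
          linarith
        refine eventually_surjective (L := fun p => (dX F p).prod ((dX E p).prod (dX H p))) ?_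
          (P3 p hb.1 hb.2 hne (norm_le_zero_iff.1 h1) (norm_le_zero_iff.1 h2))
        exact ((hdc hF p hp.1).prodMk ((hdc hE p hp.1).prodMk (hdc hH p hp.1))) |>.tendsto |>
          fun h => by
            have hc : Continuous (fun q : (X →L[ℂ] ℂ) × ((X →L[ℂ] ℂ) × (X →L[ℂ] ℂ)) =>
              q.1.prod (q.2.1.prod q.2.2)) :=
              (contDiff_clm_prod (W := ℂ) (W' := ℂ × ℂ)).continuous.comp
                (continuous_fst.prodMk ((contDiff_clm_prod (W := ℂ) (W' := ℂ)).continuous.comp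
                  continuous_snd))
            exact (hc.tendsto _).comp h)
    set β : ℝ := min β' (min ε κ) with hβdef
    have hβ : 0 < β := lt_min hβ' (lt_min hε hκ)
    have hcl1 : IsCompact (B ∩ {p | (β / 2 ≤ ‖E p‖ ∧ ‖E p‖ ≤ β) ∧ ‖H p‖ ≤ ε}) := by
      refine hBc.of_isClosed_subset ?_ inter_subset_left
      have h1 : IsClosed (B ∩ {p | β / 2 ≤ ‖E p‖ ∧ ‖E p‖ ≤ β}) :=
        hEc.norm.preimage_isClosed_of_isClosed hBc.isClosed isClosed_Icc
      have h2 : IsClosed (B ∩ {p | ‖H p‖ ≤ ε}) :=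
        hHc.norm.preimage_isClosed_of_isClosed hBc.isClosed isClosed_Iic
      have h3 := h1.inter h2
      convert h3 using 1
      ext p
      simp only [mem_inter_iff, mem_ofPred_eq]
      tauto
    obtain ⟨α', hα', hα''⟩ := exists_pos_of_good (B := B) hcl1 inter_subset_left
      (a := fun p => ‖F p‖) (hFc.norm.mono inter_subset_left)
      (fun p _ => norm_nonneg _)
      (good := fun p => Function.Surjective ((dX F p).prod (dX E p))) (by
        intro p hp h0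
        have hb := (hBmem p).1 hp.1
        have hne : p.1 ≠ 0 := by
          intro hz
          have : p = (0, p.2) := by rw [← hz]
          have h4 : β / 2 ≤ ‖E p‖ := hp.2.1.1
          rw [this, hE0 _ hb.2, norm_zero] at h4
          linarith
        refine eventually_surjective (L := fun p => (dX F p).prod (dX E p)) ?_
          (P2 p hb.1 hb.2 hne (norm_eq_zero.1 h0))
        exact ((hdc hF p hp.1).prodMk (hdc hE p hp.1)) |>.tendsto |>
          fun h => by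
            have hc : Continuous (fun q : (X →L[ℂ] ℂ) × (X →L[ℂ] ℂ) => q.1.prod q.2) :=
              contDiff_clm_prod.continuous
            exact (hc.tendsto _).comp h)
    refine ⟨min α' β, β, lt_min hα' hβ, min_le_right _ _,
      (min_le_right _ _).trans (min_le_left _ _), (min_le_right _ _).trans (min_le_right _ _),
      ?_, ?_⟩
    · intro p hp h1 h2 h3 h4
      exact hβ'' p ⟨hp, h3, h4⟩ (max_le (h1.trans (min_le_left _ _)) (h2.trans (min_le_left _ _)))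
    · intro p hp h1 h2 h3 h4
      exact hα'' p ⟨hp, ⟨h2, h3⟩, h4⟩ (h1.trans (min_le_left _ _))
  -- initial constants
  obtain ⟨κ₀, hκ₀, hκ₀'⟩ := hsmall (r / 2) (by positivity)
  obtain ⟨α₀, β₀, hα₀, hαβ₀, hβε₀, -, hS2₀, hS1₀⟩ := hpick κ₀ hκ₀ κ₀ hκ₀
  have hεk : ∀ k : ℕ, 0 < κ₀ / (k + 1) := fun k => by positivity
  choose α β hα hαβ hβε hβα hS2 hS1 using fun k : ℕ => hpick (κ₀ / (k + 1)) (hεk k) α₀ hα₀
  set par : ℕ → ℝ × ℝ × ℝ := fun k =>
    Nat.casesOn k (α₀, β₀, κ₀) (fun j => (α j, β j, κ₀ / (j + 1))) with hpar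
  have par0 : par 0 = (α₀, β₀, κ₀) := rfl
  have parS : ∀ j, par (j + 1) = (α j, β j, κ₀ / (j + 1)) := fun j => rfl
  have hp1 : ∀ k, 0 < (par k).1 := by
    intro k; cases k with
    | zero => exact hα₀
    | succ j => exact hα j
  have hp2 : ∀ k, (par k).1 ≤ (par k).2.1 := by
    intro k; cases k with
    | zero => exact hαβ₀
    | succ j => exact hαβ j
  have hp3 : ∀ k, (par k).2.1 ≤ (par k).2.2 := by
    intro k; cases k with
    | zero => exact hβε₀
    | succ j => exact hβε j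
  have hp4 : ∀ k, 0 < (par k).2.1 := fun k => (hp1 k).trans_le (hp2 k)
  have hp5 : ∀ k, 0 < (par k).2.2 := fun k => (hp4 k).trans_le (hp3 k)
  have hp6 : ∀ k, (par k).1 ≤ α₀ ∧ (par k).2.1 ≤ β₀ ∧ (par k).2.2 ≤ κ₀ := by
    intro k; cases k with
    | zero => exact ⟨le_rfl, le_rfl, le_rfl⟩
    | succ j =>
      refine ⟨(hαβ j).trans (hβα j), (hβα j).trans hαβ₀, ?_⟩
      change κ₀ / (j + 1) ≤ κ₀
      exact div_le_self hκ₀.le (by simp)
  have hS2' : ∀ k, ∀ p ∈ B, ‖F p‖ ≤ (par k).2.1 → ‖E p‖ ≤ (par k).2.1 →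
      (par k).2.2 / 2 ≤ ‖H p‖ → ‖H p‖ ≤ (par k).2.2 →
      Function.Surjective ((dX F p).prod ((dX E p).prod (dX H p))) := by
    intro k; cases k with
    | zero => exact hS2₀
    | succ j => exact hS2 j
  have hS1' : ∀ k, ∀ p ∈ B, ‖F p‖ ≤ (par k).1 → (par k).2.1 / 2 ≤ ‖E p‖ →
      ‖E p‖ ≤ (par k).2.1 → ‖H p‖ ≤ (par k).2.2 →
      Function.Surjective ((dX F p).prod (dX E p)) := by
    intro k; cases k with
    | zero => exact hS1₀
    | succ j => exact hS1 j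
  have hpsh : ∀ δ > 0, ∃ k₀, ∀ k ≥ k₀, (par k).2.2 ≤ δ := by
    intro δ hδ
    obtain ⟨n, hn⟩ := exists_nat_gt (κ₀ / δ)
    refine ⟨n + 1, fun k hk => ?_⟩
    cases k with
    | zero => omega
    | succ j =>
      change κ₀ / (j + 1) ≤ δ
      rw [div_le_iff₀ (by positivity)]
      have h1 : (n : ℝ) ≤ j := by
        have : n ≤ j := by omega
        exact_mod_cast this
      have h2 : κ₀ < n * δ := (div_lt_iff₀ hδ).1 hn
      nlinarith
  -- the barrier shells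
  set T2 : ℕ → Set (X × ℂ) := fun k => {p ∈ B | ‖F p‖ ≤ (par k).2.1 ∧ ‖E p‖ ≤ (par k).2.1 ∧
    (par k).2.2 / 2 ≤ ‖H p‖ ∧ ‖H p‖ ≤ (par k).2.2} with hT2
  set T1 : ℕ → Set (X × ℂ) := fun k => {p ∈ B | ‖F p‖ ≤ (par k).1 ∧ (par k).2.1 / 2 ≤ ‖E p‖ ∧
    ‖E p‖ ≤ (par k).2.1 ∧ ‖H p‖ ≤ (par k).2.2} with hT1
  have cl : ∀ {f : X × ℂ → ℂ}, ContinuousOn f B → ∀ s : Set ℝ, IsClosed s →
      IsClosed (B ∩ {p | ‖f p‖ ∈ s}) := fun hf s hs =>
    hf.norm.preimage_isClosed_of_isClosed hBc.isClosed hs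
  have hT2c : ∀ k, IsClosed (T2 k) := by
    intro k
    have h1 := cl hFc _ (isClosed_Iic (a := (par k).2.1))
    have h2 := cl hEc _ (isClosed_Iic (a := (par k).2.1))
    have h3 := cl hHc _ (isClosed_Icc (a := (par k).2.2 / 2) (b := (par k).2.2))
    convert h1.inter (h2.inter h3) using 1
    ext p
    simp only [hT2, mem_inter_iff, mem_ofPred_eq, mem_Iic, mem_Icc]
    tauto
  have hT1c : ∀ k, IsClosed (T1 k) := by
    intro k
    have h1 := cl hFc _ (isClosed_Iic (a := (par k).1))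
    have h2 := cl hEc _ (isClosed_Icc (a := (par k).2.1 / 2) (b := (par k).2.1))
    have h3 := cl hHc _ (isClosed_Iic (a := (par k).2.2))
    convert h1.inter (h2.inter h3) using 1
    ext p
    simp only [hT1, mem_inter_iff, mem_ofPred_eq, mem_Iic, mem_Icc]
    tauto
  have hT2sh : ∀ δ > 0, ∃ k₀, ∀ k ≥ k₀, ∀ p ∈ T2 k, ‖p.1‖ < δ := by
    intro δ hδ
    obtain ⟨κ, hκ, hκ'⟩ := hsmall δ hδ
    obtain ⟨k₀, hk₀⟩ := hpsh κ hκ
    refine ⟨k₀, fun k hk p hp => ?_⟩
    obtain ⟨h1, h2, h3, -, h4⟩ := hp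
    have h5 := hk₀ k hk
    have h6 := hp3 k
    exact hκ' p h1 (by linarith) (by linarith) (by linarith)
  have hT1sh : ∀ δ > 0, ∃ k₀, ∀ k ≥ k₀, ∀ p ∈ T1 k, ‖p.1‖ < δ := by
    intro δ hδ
    obtain ⟨κ, hκ, hκ'⟩ := hsmall δ hδ
    obtain ⟨k₀, hk₀⟩ := hpsh κ hκ
    refine ⟨k₀, fun k hk p hp => ?_⟩
    obtain ⟨h1, h2, -, h3, h4⟩ := hp
    have h5 := hk₀ k hk
    have h6 := hp3 k
    have h7 := hp2 k
    exact hκ' p h1 (by linarith) (by linarith) (by linarith)
  -- the open region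
  set G : Set (X × ℂ) := {p | p.1 ≠ 0 ∧ ‖p.1‖ < r ∧ ‖p.2‖ < η} with hG
  have hGo : IsOpen G := by
    have h1 : IsOpen {p : X × ℂ | p.1 ≠ 0} := isOpen_ne_fun continuous_fst continuous_const
    have h2 : IsOpen {p : X × ℂ | ‖p.1‖ < r} := isOpen_lt continuous_fst.norm continuous_const
    have h3 : IsOpen {p : X × ℂ | ‖p.2‖ < η} := isOpen_lt continuous_snd.norm continuous_const
    exact h1.inter (h2.inter h3)
  have hGB : ∀ p ∈ G, p ∈ B := fun p hp => (hBmem p).2 ⟨hp.2.1.le, hp.2.2.le⟩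
  -- the vector field
  set K : X × ℂ → Set X := fun p => {v | fderiv ℂ F p (v, 1) = 0 ∧
    (((∃ k, p ∈ T1 k ∪ T2 k) ∨ F p = 0) → fderiv ℂ E p (v, 1) = 0) ∧
    (((∃ k, p ∈ T2 k) ∨ (F p = 0 ∧ E p = 0)) → fderiv ℂ H p (v, 1) = 0)} with hK
  have hconv : ∀ (f : X × ℂ → ℂ) (p : X × ℂ) (v w : X) (a b : ℝ), a + b = 1 →
      fderiv ℂ f p (v, 1) = 0 → fderiv ℂ f p (w, 1) = 0 →
      fderiv ℂ f p (a • v + b • w, 1) = 0 := by
    intro f p v w a b hab hv hw
    have e1 : ((a • v + b • w, 1) : X × ℂ) = (a : ℂ) • ((v, 1) : X × ℂ) + (b : ℂ) • ((w, 1) : X × ℂ) := by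
      ext
      · simp [Complex.coe_smul]
      · simp only [Prod.snd_add, Prod.smul_snd, smul_eq_mul, mul_one]
        rw [← Complex.ofReal_add, hab, Complex.ofReal_one]
    rw [e1, map_add, map_smul, map_smul, hv, hw]
    simp
  obtain ⟨u, huc, huK⟩ := exists_selection hGo K (by
    intro p _ v hv w hw a b _ _ hab
    exact ⟨hconv F p v w a b hab hv.1 hw.1,
      fun hk => hconv E p v w a b hab (hv.2.1 hk) (hw.2.1 hk),
      fun hk => hconv H p v w a b hab (hv.2.2 hk) (hw.2.2 hk)⟩) (by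
    intro p₀ hp₀
    have hp₀B := hGB p₀ hp₀
    have hb := (hBmem p₀).1 hp₀B
    have hne := hp₀.1
    have hcF : ContinuousAt F p₀ := (hF p₀ hp₀B).continuousAt
    have hcE : ContinuousAt E p₀ := (hE p₀ hp₀B).continuousAt
    by_cases h2 : (∃ k, p₀ ∈ T2 k) ∨ (F p₀ = 0 ∧ E p₀ = 0)
    · -- three constraints
      have hsurj : Function.Surjective ((dX F p₀).prod ((dX E p₀).prod (dX H p₀))) := by
        rcases h2 with ⟨k, hk⟩ | ⟨h0F, h0E⟩
        · exact hS2' k p₀ hk.1 hk.2.1 hk.2.2.1 hk.2.2.2.1 hk.2.2.2.2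
        · exact P3 p₀ hb.1 hb.2 hne h0F h0E
      obtain ⟨g, hg1, hg2⟩ := exists_local_solution
        (L := fun p => (dX F p).prod ((dX E p).prod (dX H p)))
        (b := fun p => (-fderiv ℂ F p (0, 1), (-fderiv ℂ E p (0, 1), -fderiv ℂ H p (0, 1))))
        (p₀ := p₀)
        (by
          have h1 : ContDiffAt ℝ 1 (fun p => (dX E p).prod (dX H p)) p₀ :=
            (contDiff_clm_prod (W := ℂ) (W' := ℂ)).contDiffAt.comp p₀
              ((contDiffAt_dX (hE p₀ hp₀B)).prodMk (contDiffAt_dX (hH p₀ hp₀B)))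
          exact (contDiff_clm_prod (W := ℂ) (W' := ℂ × ℂ)).contDiffAt.comp p₀
            ((contDiffAt_dX (hF p₀ hp₀B)).prodMk h1))
        ((contDiffAt_dT (hF p₀ hp₀B)).neg.prodMk ((contDiffAt_dT (hE p₀ hp₀B)).neg.prodMk
          (contDiffAt_dT (hH p₀ hp₀B)).neg)) hsurj
      refine ⟨g, hg1, ?_⟩
      filter_upwards [hg2] with p hp
      rw [Prod.ext_iff, Prod.ext_iff] at hp
      obtain ⟨h1, h2, h3⟩ := hp
      refine ⟨?_, fun _ => ?_, fun _ => ?_⟩
      · rw [fderiv_split]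
        have : dX F p (g p) = -fderiv ℂ F p (0, 1) := h1
        rw [this]; ring
      · rw [fderiv_split]
        have : dX E p (g p) = -fderiv ℂ E p (0, 1) := h2
        rw [this]; ring
      · rw [fderiv_split]
        have : dX H p (g p) = -fderiv ℂ H p (0, 1) := h3
        rw [this]; ring
    · have h2a : ∀ᶠ p in 𝓝 p₀, ∀ k, p ∉ T2 k :=
        eventually_notMem_iUnion hT2c hT2sh hne (fun k hk => h2 (Or.inl ⟨k, hk⟩))
      have h2b : ∀ᶠ p in 𝓝 p₀, ¬ (F p = 0 ∧ E p = 0) := by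
        by_cases hF00 : F p₀ = 0
        · have hE00 : E p₀ ≠ 0 := fun h => h2 (Or.inr ⟨hF00, h⟩)
          filter_upwards [hcE.eventually_ne hE00] with p hp hpp
          exact hp hpp.2
        · filter_upwards [hcF.eventually_ne hF00] with p hp hpp
          exact hp hpp.1
      have h2' : ∀ᶠ p in 𝓝 p₀, ¬ ((∃ k, p ∈ T2 k) ∨ (F p = 0 ∧ E p = 0)) := by
        filter_upwards [h2a, h2b] with p ha hb'
        rintro (⟨k, hk⟩ | h)
        · exact ha k hk
        · exact hb' h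
      by_cases h1 : (∃ k, p₀ ∈ T1 k) ∨ F p₀ = 0
      · have hsurj : Function.Surjective ((dX F p₀).prod (dX E p₀)) := by
          rcases h1 with ⟨k, hk⟩ | h0F
          · exact hS1' k p₀ hk.1 hk.2.1 hk.2.2.1 hk.2.2.2.1 hk.2.2.2.2
          · exact P2 p₀ hb.1 hb.2 hne h0F
        obtain ⟨g, hg1, hg2⟩ := exists_local_solution
          (L := fun p => (dX F p).prod (dX E p))
          (b := fun p => (-fderiv ℂ F p (0, 1), -fderiv ℂ E p (0, 1)))
          (p₀ := p₀)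
          ((contDiff_clm_prod (W := ℂ) (W' := ℂ)).contDiffAt.comp p₀
            ((contDiffAt_dX (hF p₀ hp₀B)).prodMk (contDiffAt_dX (hE p₀ hp₀B))))
          ((contDiffAt_dT (hF p₀ hp₀B)).neg.prodMk (contDiffAt_dT (hE p₀ hp₀B)).neg) hsurj
        refine ⟨g, hg1, ?_⟩
        filter_upwards [hg2, h2'] with p hp hp2
        rw [Prod.ext_iff] at hp
        obtain ⟨h1, h2⟩ := hp
        refine ⟨?_, fun _ => ?_, fun hj => absurd hj hp2⟩
        · rw [fderiv_split]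
          have : dX F p (g p) = -fderiv ℂ F p (0, 1) := h1
          rw [this]; ring
        · rw [fderiv_split]
          have : dX E p (g p) = -fderiv ℂ E p (0, 1) := h2
          rw [this]; ring
      · have h1' : ∀ᶠ p in 𝓝 p₀, ∀ k, p ∉ T1 k :=
          eventually_notMem_iUnion hT1c hT1sh hne (fun k hk => h1 (Or.inl ⟨k, hk⟩))
        have h1'' : ∀ᶠ p in 𝓝 p₀, F p ≠ 0 :=
          hcF.eventually_ne (fun h => h1 (Or.inr h))
        obtain ⟨g, hg1, hg2⟩ := exists_local_solution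
          (L := fun p => dX F p) (b := fun p => -fderiv ℂ F p (0, 1)) (p₀ := p₀)
          (contDiffAt_dX (hF p₀ hp₀B)) (contDiffAt_dT (hF p₀ hp₀B)).neg (P1 p₀ hb.1 hb.2 hne)
        refine ⟨g, hg1, ?_⟩
        filter_upwards [hg2, h2', h1', h1''] with p hp hp2 hp1 hpF
        refine ⟨?_, fun hj => ?_, fun hj => absurd hj hp2⟩
        · rw [fderiv_split, hp]; ring
        · rcases hj with ⟨j, hj | hj⟩ | hj
          · exact absurd hj (hp1 j)
          · exact absurd (Or.inl ⟨j, hj⟩) hp2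
          · exact absurd hj hpF)
  -- the invariant neighbourhoods
  set Q : ℕ → Set (X × ℂ) := fun k => {p | (‖p.1‖ < r ∧ ‖p.2‖ < η) ∧
    ‖F p‖ < (par k).1 ∧ ‖E p‖ < (par k).2.1 ∧ ‖H p‖ < (par k).2.2} with hQ
  set U : Set (X × ℂ) := {p | ‖p.1‖ < r ∧ ‖p.2‖ < η} with hU
  have hUo : IsOpen U :=
    (isOpen_lt continuous_fst.norm continuous_const).inter
      (isOpen_lt continuous_snd.norm continuous_const)
  have hUB : U ⊆ B := fun p hp => (hBmem p).2 ⟨hp.1.le, hp.2.le⟩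
  have op : ∀ {f : X × ℂ → ℂ}, ContinuousOn f B → ∀ c : ℝ, IsOpen (U ∩ {p | ‖f p‖ < c}) :=
    fun hf c => (hf.norm.mono hUB).isOpen_inter_preimage hUo isOpen_Iio
  have hQo : ∀ k, IsOpen (Q k) := by
    intro k
    have h1 := op hFc (par k).1
    have h2 := op hEc (par k).2.1
    have h3 := op hHc (par k).2.2
    convert h1.inter (h2.inter h3) using 1
    ext p
    simp only [hQ, hU, mem_inter_iff, mem_ofPred_eq]
    tauto
  have hη2 : η / 2 < η := by linarith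
  have hGan : ∀ {f : X × ℂ → ℂ}, AnalyticOnNhd ℂ f B → ∀ p ∈ G, AnalyticAt ℂ f p :=
    fun hf p hp => hf p (hGB p hp)
  -- derivative facts along trajectories
  have hconstF : ∀ (c₀ c₁ : ℝ) (t : ℂ) (b : ℝ) (x : ℝ → X), 0 ≤ b → Traj G u c₀ c₁ t b x →
      ∀ s ∈ Icc 0 b, F (x s, (c₀ + c₁ * s) • t) = F (x 0, (c₀ + c₁ * 0) • t) := by
    intro c₀ c₁ t b x hb hx
    refine eq_of_hasDerivWithinAt_zero (f := fun s => F (x s, (c₀ + c₁ * s) • t)) le_rfl le_rfl ?_
    intro s hs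
    have h1 := hasDerivWithinAt_traj hx (hGan hF) hs
    rw [(huK _ (hx s hs).1).1, mul_zero] at h1
    exact h1
  have bar : ∀ k, ∀ c₀ c₁ : ℝ, (∀ s ∈ Icc (0 : ℝ) 1, c₀ + c₁ * s ∈ Icc (0 : ℝ) 1) →
      ∀ t : ℂ, ‖t‖ ≤ η / 2 → ∀ b ∈ Icc (0 : ℝ) 1, ∀ x, Traj G u c₀ c₁ t b x →
      ∀ s ∈ Icc 0 b, ((x 0, c₀ • t) ∈ Q k ↔ (x s, (c₀ + c₁ * s) • t) ∈ Q k) := by
    intro k c₀ c₁ hc t ht b hb x hx s hs
    have hE' : ∀ s ∈ Icc 0 b, HasDerivWithinAt (fun s => E (x s, (c₀ + c₁ * s) • t))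
        ((c₁ : ℂ) * t * fderiv ℂ E (x s, (c₀ + c₁ * s) • t)
        (u (x s, (c₀ + c₁ * s) • t), 1)) (Icc 0 b) s :=
      fun s hs => hasDerivWithinAt_traj hx (hGan hE) hs
    have hH' : ∀ s ∈ Icc 0 b, HasDerivWithinAt (fun s => H (x s, (c₀ + c₁ * s) • t))
        ((c₁ : ℂ) * t * fderiv ℂ H (x s, (c₀ + c₁ * s) • t)
        (u (x s, (c₀ + c₁ * s) • t), 1)) (Icc 0 b) s :=
      fun s hs => hasDerivWithinAt_traj hx (hGan hH) hs
    have key := barrier_iff (b := b) (α := (par k).1) (β := (par k).2.1) (ε := (par k).2.2)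
      (a := fun s => F (x s, (c₀ + c₁ * s) • t)) (e := fun s => E (x s, (c₀ + c₁ * s) • t))
      (h := fun s => H (x s, (c₀ + c₁ * s) • t)) (hp2 k) (hp4 k) (hp5 k)
      (hconstF c₀ c₁ t b x hb.1 hx)
      (HasDerivWithinAt.continuousOn hE') (HasDerivWithinAt.continuousOn hH')
      (by
        intro s hs h1 h2 h3 h4
        have h5 := hE' s hs
        have hmem := (hx s hs).1
        have hT : (x s, (c₀ + c₁ * s) • t) ∈ T1 k := ⟨hGB _ hmem, h1, h2, h3, h4⟩
        rw [(huK _ hmem).2.1 (Or.inl ⟨k, Or.inl hT⟩), mul_zero] at h5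
        exact h5)
      (by
        intro s hs h1 h2 h3 h4
        have h5 := hH' s hs
        have hmem := (hx s hs).1
        have hT : (x s, (c₀ + c₁ * s) • t) ∈ T2 k := ⟨hGB _ hmem, h1, h2, h3, h4⟩
        rw [(huK _ hmem).2.2 (Or.inl ⟨k, hT⟩), mul_zero] at h5
        exact h5) s hs
    have hm0 := (hx 0 ⟨le_rfl, hb.1⟩).1
    have hms := (hx s hs).1
    have e0 : (c₀ + c₁ * 0) • t = c₀ • t := by rw [mul_zero, add_zero]
    rw [e0] at hm0
    simp only [e0] at key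
    constructor
    · intro h
      exact ⟨hms.2, key.1 h.2⟩
    · intro h
      exact ⟨hm0.2, key.2 h.2⟩
  have hcl : ∀ t : ℂ, ‖t‖ ≤ η / 2 → ‖t‖ ≤ η := fun t ht => ht.trans hη2.le
  obtain ⟨e, he1, he2, he3, he4, he5⟩ := exists_homeo (η' := η / 2) (G := G) hGo
    (fun p hp => hp.1) huc (Q := Q) (C := closedBall 0 (r / 2) ×ˢ closedBall 0 (η / 2)) hQo
    (fun k p hp => ⟨hp.1, hp.2.1.trans_le (hp6 k).1, hp.2.2.1.trans_le (hp6 k).2.1,
      hp.2.2.2.trans_le (hp6 k).2.2⟩)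
    (fun k t ht => ⟨⟨by simpa using hr, ht.trans_lt hη2⟩, by
      rw [hF0 t (hcl t ht), norm_zero]; exact hp1 k, by
      rw [hE0 t (hcl t ht), norm_zero]; exact hp4 k, by
      rw [hH0 t (hcl t ht), norm_zero]; exact hp5 k⟩)
    ((isCompact_closedBall _ _).prod (isCompact_closedBall _ _))
    (by
      intro p hp hp2 hne
      have h1 : ‖p.1‖ ≤ r / 2 := by simpa using hp.1
      exact ⟨hne, by linarith, by linarith⟩)
    (by
      intro p hp hp2
      obtain ⟨h1, h2, h3, h4⟩ := hp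
      refine ⟨?_, by simpa using hp2⟩
      rw [mem_closedBall_zero_iff]
      have hk := hp6 0
      have hk3 := hp3 0
      have hk2 := hp2
      have h5 := hαβ₀
      exact (hκ₀' p (hUB h1) (by linarith [hk.1]) (by linarith [hk.2.1]) (by linarith [hk.2.2])).le)
    (by
      intro δ hδ
      obtain ⟨κ, hκ, hκ'⟩ := hsmall δ hδ
      obtain ⟨k₀, hk₀⟩ := hpsh κ hκ
      refine ⟨k₀, fun p hp _ => ?_⟩
      obtain ⟨h1, h2, h3, h4⟩ := hp
      have h5 := hk₀ k₀ le_rfl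
      have h6 := hp3 k₀
      have h7 := hp2 k₀
      exact hκ' p (hUB h1) (by linarith) (by linarith) (by linarith))
    bar
  refine ⟨e, ?_, ?_, he3, he4, ?_⟩
  · intro p hp
    rw [he1] at hp
    exact hp.1
  · intro t ht
    rw [he1]
    refine ⟨ht, ⟨by simpa using hr, by simpa using hη⟩, ?_, ?_, ?_⟩
    · rw [hF0 0 (by simpa using hη.le), norm_zero]; exact hp1 0
    · rw [hE0 0 (by simpa using hη.le), norm_zero]; exact hp4 0
    · rw [hH0 0 (by simpa using hη.le), norm_zero]; exact hp5 0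
  · intro p hp
    by_cases hne : p.1 = 0
    · have : p = (0, p.2) := by rw [← hne]
      have hp' := hp
      rw [he1] at hp'
      have ht : ‖p.2‖ ≤ η := by linarith [hp'.1]
      rw [this, he4, hF0 _ ht, hF0 0 (by simpa using hη.le), hE0 _ ht, hE0 0 (by simpa using hη.le),
        hH0 _ ht, hH0 0 (by simpa using hη.le)]
      exact ⟨rfl, fun _ => rfl, fun _ _ => rfl⟩
    · obtain ⟨x, hx, hx0, hx1⟩ := he5 p hp hne
      have hF1 : ∀ s ∈ Icc (0 : ℝ) 1, F (x s, (((0 : ℝ) + 1 * s : ℝ)) • p.2) = F (p.1, 0) := by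
        intro s hs
        have h1 := hconstF 0 1 p.2 1 x zero_le_one hx s hs
        simpa [hx0] using h1
      have e1 : (e p) = (x 1, p.2) := by
        rw [hx1, ← he3 p]
      have e2 : (e p) = (x 1, (((0 : ℝ) + 1 * 1 : ℝ)) • p.2) := by
        rw [e1]; simp
      have hEs : F (p.1, 0) = 0 → ∀ s ∈ Icc (0 : ℝ) 1,
          E (x s, (((0 : ℝ) + 1 * s : ℝ)) • p.2) = E (p.1, 0) := by
        intro h0 s hs
        have h2 := eq_of_hasDerivWithinAt_zero
          (f := fun s => E (x s, (((0 : ℝ) + 1 * s : ℝ)) • p.2)) (b := 1) (c := 0) (d := 1)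
          le_rfl le_rfl (by
            intro s hs
            have h3 := hasDerivWithinAt_traj hx (hGan hE) hs
            rw [(huK _ (hx s hs).1).2.1 (Or.inr ((hF1 s hs).trans h0)), mul_zero] at h3
            exact h3) s hs
        simpa [hx0] using h2
      have hHs : F (p.1, 0) = 0 → E (p.1, 0) = 0 → ∀ s ∈ Icc (0 : ℝ) 1,
          H (x s, (((0 : ℝ) + 1 * s : ℝ)) • p.2) = H (p.1, 0) := by
        intro h0 h0' s hs
        have h2 := eq_of_hasDerivWithinAt_zero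
          (f := fun s => H (x s, (((0 : ℝ) + 1 * s : ℝ)) • p.2)) (b := 1) (c := 0) (d := 1)
          le_rfl le_rfl (by
            intro s hs
            have h3 := hasDerivWithinAt_traj hx (hGan hH) hs
            rw [(huK _ (hx s hs).1).2.2 (Or.inr ⟨(hF1 s hs).trans h0,
              (hEs h0 s hs).trans h0'⟩), mul_zero] at h3
            exact h3) s hs
        simpa [hx0] using h2
      have m1 : (1 : ℝ) ∈ Icc (0 : ℝ) 1 := by simp
      refine ⟨?_, fun h0 => ?_, fun h0 h0' => ?_⟩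
      · rw [e2]; exact hF1 1 m1
      · rw [e2]; exact hEs h0 1 m1
      · rw [e2]; exact hHs h0 h0' 1 m1


end Vale.Agent.P298
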