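import Vale.Agent.P298.H974.Crit

/-!
# Colengths give a regular flag; surfaces containing a fixed complete intersection curve
-/

set_option linter.all false

open Set Metric Filter Topology

namespace Vale.Agent.P298

/-- Constant colengths give a regular flag. -/
theorem regularFlag_of_colength {r : ℝ} (hr : 0 < r) {F E H : (Fin 3 → ℂ) → ℂ → ℂ}
    (hF : IsHolFamily r F) (hE : IsHolFamily r E) (hH : IsHolFamily r H) {μ a b c : ℕ}
    (h₁ : ∀ t ∈ ball (0 : ℂ) r, Milnor (F · t) μ)
    (h₂ : ∀ t ∈ ball (0 : ℂ) r, Colength ![(F · t), minor2 0 1 (F · t) (E · t),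
      minor2 0 2 (F · t) (E · t), minor2 1 2 (F · t) (E · t)] a)
    (h₃ : ∀ t ∈ ball (0 : ℂ) r, Colength ![(F · t), (E · t), jac3 (F · t) (E · t) (H · t)] b)
    (h₄ : ∀ t ∈ ball (0 : ℂ) r, Colength ![(F · t), (E · t), (H · t)] c) :
    RegularFlag F E H := by
  have h0r : (0 : ℂ) ∈ ball (0 : ℂ) r := mem_ball_self hr
  have hnr : ∀ᶠ t in 𝓝 (0 : ℂ), t ∈ ball (0 : ℂ) r := isOpen_ball.mem_nhds h0r
  set Fu : (Fin 3 → ℂ) × ℂ → ℂ := fun p => F p.1 p.2 with hFu
  set Eu : (Fin 3 → ℂ) × ℂ → ℂ := fun p => E p.1 p.2 with hEu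
  set Hu : (Fin 3 → ℂ) × ℂ → ℂ := fun p => H p.1 p.2 with hHu
  have aF : AnalyticAt ℂ Fu (0, 0) := (hF 0 h0r).1
  have aE : AnalyticAt ℂ Eu (0, 0) := (hE 0 h0r).1
  have aH : AnalyticAt ℂ Hu (0, 0) := (hH 0 h0r).1
  have pF := fun i => analyticAt_pd (G := F) aF i
  have pE := fun i => analyticAt_pd (G := E) aE i
  have pH := fun i => analyticAt_pd (G := H) aH i
  have aM : ∀ i j, AnalyticAt ℂ (fun p : (Fin 3 → ℂ) × ℂ =>
      minor2 i j (fun x => F x p.2) (fun x => E x p.2) p.1) (0, 0) := fun i j =>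
    ((pF i).mul (pE j)).sub ((pF j).mul (pE i))
  have aJ : AnalyticAt ℂ (fun p : (Fin 3 → ℂ) × ℂ =>
      jac3 (fun x => F x p.2) (fun x => E x p.2) (fun x => H x p.2) p.1) (0, 0) := by
    have : (fun p : (Fin 3 → ℂ) × ℂ =>
        jac3 (fun x => F x p.2) (fun x => E x p.2) (fun x => H x p.2) p.1) = fun p =>
        pd 0 (fun x => F x p.2) p.1 * pd 1 (fun x => E x p.2) p.1 * pd 2 (fun x => H x p.2) p.1 -
        pd 0 (fun x => F x p.2) p.1 * pd 2 (fun x => E x p.2) p.1 * pd 1 (fun x => H x p.2) p.1 -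
        pd 1 (fun x => F x p.2) p.1 * pd 0 (fun x => E x p.2) p.1 * pd 2 (fun x => H x p.2) p.1 +
        pd 1 (fun x => F x p.2) p.1 * pd 2 (fun x => E x p.2) p.1 * pd 0 (fun x => H x p.2) p.1 +
        pd 2 (fun x => F x p.2) p.1 * pd 0 (fun x => E x p.2) p.1 * pd 1 (fun x => H x p.2) p.1 -
        pd 2 (fun x => F x p.2) p.1 * pd 1 (fun x => E x p.2) p.1 * pd 0 (fun x => H x p.2) p.1 := by
      funext p
      simp only [jac3, Matrix.det_fin_three, Matrix.of_apply]
      simp
    rw [this]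
    exact (((((((pF 0).mul (pE 1)).mul (pH 2)).sub (((pF 0).mul (pE 2)).mul (pH 1))).sub
      (((pF 1).mul (pE 0)).mul (pH 2))).add (((pF 1).mul (pE 2)).mul (pH 0))).add
      (((pF 2).mul (pE 0)).mul (pH 1))).sub (((pF 2).mul (pE 1)).mul (pH 0))
  have s1 := eq_zero_of_colength (0 : ℂ)
    (fun (i : Fin 3) (p : (Fin 3 → ℂ) × ℂ) => pd i (fun x => F x p.2) p.1) pF μ
    (hnr.mono fun t ht => h₁ t ht)
  have s2 := eq_zero_of_colength (0 : ℂ)
    (![Fu, fun p => minor2 0 1 (fun x => F x p.2) (fun x => E x p.2) p.1,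
      fun p => minor2 0 2 (fun x => F x p.2) (fun x => E x p.2) p.1,
      fun p => minor2 1 2 (fun x => F x p.2) (fun x => E x p.2) p.1])
    (by
      intro j
      fin_cases j
      · exact aF
      · exact aM 0 1
      · exact aM 0 2
      · exact aM 1 2) a
    (hnr.mono fun t ht => by
      have e : (fun (j : Fin 4) => fun x : Fin 3 → ℂ =>
          (![Fu, fun p => minor2 0 1 (fun x => F x p.2) (fun x => E x p.2) p.1,
      fun p => minor2 0 2 (fun x => F x p.2) (fun x => E x p.2) p.1,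
      fun p => minor2 1 2 (fun x => F x p.2) (fun x => E x p.2) p.1]) j (x, t)) =
          ![(F · t), minor2 0 1 (F · t) (E · t),
      minor2 0 2 (F · t) (E · t), minor2 1 2 (F · t) (E · t)] := by
        funext j
        fin_cases j <;> rfl
      rw [e]
      exact h₂ t ht)
  have s3 := eq_zero_of_colength (0 : ℂ)
    (![Fu, Eu, fun p => jac3 (fun x => F x p.2) (fun x => E x p.2) (fun x => H x p.2) p.1])
    (by
      intro j
      fin_cases j
      · exact aF
      · exact aE
      · exact aJ) b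
    (hnr.mono fun t ht => by
      have e : (fun (j : Fin 3) => fun x : Fin 3 → ℂ =>
          (![Fu, Eu, fun p =>
            jac3 (fun x => F x p.2) (fun x => E x p.2) (fun x => H x p.2) p.1]) j (x, t)) =
          ![(F · t), (E · t), jac3 (F · t) (E · t) (H · t)] := by
        funext j
        fin_cases j <;> rfl
      rw [e]
      exact h₃ t ht)
  have s4 := eq_zero_of_colength (0 : ℂ) (![Fu, Eu, Hu])
    (by
      intro j
      fin_cases j
      · exact aF
      · exact aE
      · exact aH) c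
    (hnr.mono fun t ht => by
      have e : (fun (j : Fin 3) => fun x : Fin 3 → ℂ =>
          (![Fu, Eu, Hu]) j (x, t)) = ![(F · t), (E · t), (H · t)] := by
        funext j
        fin_cases j <;> rfl
      rw [e]
      exact h₄ t ht)
  unfold RegularFlag
  filter_upwards [aF.eventually_analyticAt, aE.eventually_analyticAt,
      aH.eventually_analyticAt, s1, s2, s3, s4] with p q1 q2 q3 q4 q5 q6 q7 hp
  refine ⟨?_, fun hF0 => ?_, fun hF0 hE0 => ⟨fun hc => ?_, fun hH0 => ?_⟩⟩
  · by_contra hc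
    push Not at hc
    exact hp (q4 hc)
  · by_contra hc
    push Not at hc
    refine hp (q5 fun j => ?_)
    fin_cases j
    · exact hF0
    · exact hc 0 1
    · exact hc 0 2
    · exact hc 1 2
  · refine hp (q6 fun j => ?_)
    fin_cases j
    · exact hF0
    · exact hE0
    · exact hc
  · refine hp (q7 fun j => ?_)
    fin_cases j
    · exact hF0
    · exact hE0
    · exact hH0

/-- slices of the trivialisation -/
theorem FlagTrivial.constantPairType {n : ℕ} {r : ℝ} {F E H : (Fin n → ℂ) → ℂ → ℂ}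
    (h : FlagTrivial r F E H) : ConstantPairType r F E := by
  obtain ⟨δ, h1, h2, Φ, h3, h4, h5⟩ := h
  refine ⟨δ, h1, h2, fun t ht => ?_⟩
  have hs : ∀ y : (Fin n → ℂ) × ℂ, y ∈ Φ.target → (Φ.symm y).2 = y.2 := by
    intro y hy
    have := (h5 _ (Φ.map_target hy)).1
    rw [Φ.right_inv hy] at this
    exact this.symm
  have hct : Continuous (fun x : Fin n → ℂ => (x, t)) := by fun_prop
  let h : OpenPartialHomeomorph (Fin n → ℂ) (Fin n → ℂ) :=
    { toFun := fun x => (Φ (x, t)).1
      invFun := fun y => (Φ.symm (y, t)).1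
      source := {x | (x, t) ∈ Φ.source}
      target := {y | (y, t) ∈ Φ.target}
      map_source' := fun x hx => by
        have e : ((Φ (x, t)).1, t) = Φ (x, t) := Prod.ext rfl ((h5 _ hx).1).symm
        change ((Φ (x, t)).1, t) ∈ Φ.target
        rw [e]
        exact Φ.map_source hx
      map_target' := fun y hy => by
        have e : ((Φ.symm (y, t)).1, t) = Φ.symm (y, t) := Prod.ext rfl (hs _ hy).symm
        change ((Φ.symm (y, t)).1, t) ∈ Φ.source
        rw [e]
        exact Φ.map_target hy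
      left_inv' := fun x hx => by
        have e : ((Φ (x, t)).1, t) = Φ (x, t) := Prod.ext rfl ((h5 _ hx).1).symm
        change (Φ.symm ((Φ (x, t)).1, t)).1 = x
        rw [e, Φ.left_inv hx]
      right_inv' := fun y hy => by
        have e : ((Φ.symm (y, t)).1, t) = Φ.symm (y, t) := Prod.ext rfl (hs _ hy).symm
        change (Φ ((Φ.symm (y, t)).1, t)).1 = y
        rw [e, Φ.right_inv hy]
      open_source := Φ.open_source.preimage hct
      open_target := Φ.open_target.preimage hct
      continuousOn_toFun := (continuous_fst.comp_continuousOn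
        (Φ.continuousOn.comp hct.continuousOn fun x hx => hx))
      continuousOn_invFun := (continuous_fst.comp_continuousOn
        (Φ.symm.continuousOn.comp hct.continuousOn fun x hx => hx)) }
  refine ⟨h, (h4 t ht).1, ?_, ?_⟩
  · change (Φ (0, t)).1 = 0
    rw [(h4 t ht).2]
  · intro x hx
    obtain ⟨q1, q2, q3, q4⟩ := h5 _ hx
    change F (h x) t = F x 0 at q2
    change F x 0 = 0 → E (h x) t = E x 0 at q3
    refine ⟨by rw [q2], ?_⟩
    constructor
    · rintro ⟨u, v⟩
      have h0 : F x 0 = 0 := by rw [← q2]; exact u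
      exact ⟨h0, by rw [← q3 h0]; exact v⟩
    · rintro ⟨u, v⟩
      exact ⟨by rw [q2]; exact u, by rw [q3 u]; exact v⟩

theorem flagTrivial_of_colength {r : ℝ} (hr : 0 < r) {F E H : (Fin 3 → ℂ) → ℂ → ℂ}
    (hF : IsHolFamily r F) (hE : IsHolFamily r E) (hH : IsHolFamily r H) {μ a b c : ℕ}
    (h₁ : ∀ t ∈ ball (0 : ℂ) r, Milnor (F · t) μ)
    (h₂ : ∀ t ∈ ball (0 : ℂ) r, Colength ![(F · t), minor2 0 1 (F · t) (E · t),
      minor2 0 2 (F · t) (E · t), minor2 1 2 (F · t) (E · t)] a)
    (h₃ : ∀ t ∈ ball (0 : ℂ) r, Colength ![(F · t), (E · t), jac3 (F · t) (E · t) (H · t)] b)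
    (h₄ : ∀ t ∈ ball (0 : ℂ) r, Colength ![(F · t), (E · t), (H · t)] c) :
    FlagTrivial r F E H :=
  flagTrivial_of_regular hr hF hE hH (regularFlag_of_colength hr hF hE hH h₁ h₂ h₃ h₄)

end Vale.Agent.P298
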