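import Vale.Agent.P298.H974.Ord
import Vale.Agent.P298.H744.CS

/-! For `F(x,t) = φ(f(x), g(x), t)` with constant Milnor number the critical curves of `(f, g)` do
not meet the surfaces `F = 0` outside the origin. -/

namespace Vale.Agent.P298.H974

open Filter Topology Metric

variable {n : ℕ}

/-- The minors of the differentials of `f` and `g`. -/
noncomputable def mnr (f g : (Fin n → ℂ) → ℂ) (x : Fin n → ℂ) (i j : Fin n) : ℂ :=
  fderiv ℂ f x (Pi.single i 1) * fderiv ℂ g x (Pi.single j 1) -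
    fderiv ℂ f x (Pi.single j 1) * fderiv ℂ g x (Pi.single i 1)

theorem analyticAt_apply {f : (Fin n → ℂ) → ℂ} {x : Fin n → ℂ} (h : AnalyticAt ℂ f x)
    (v : Fin n → ℂ) : AnalyticAt ℂ (fun x => fderiv ℂ f x v) x :=
  (ContinuousLinearMap.apply ℂ ℂ v).analyticAt _ |>.comp h.fderiv

theorem analyticAt_mnr {f g : (Fin n → ℂ) → ℂ} {x : Fin n → ℂ} (hf : AnalyticAt ℂ f x)
    (hg : AnalyticAt ℂ g x) (i j : Fin n) : AnalyticAt ℂ (fun x => mnr f g x i j) x :=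
  ((analyticAt_apply hf _).mul (analyticAt_apply hg _)).sub
    ((analyticAt_apply hf _).mul (analyticAt_apply hg _))

theorem apply_eq_sum (L : (Fin n → ℂ) →L[ℂ] ℂ) (v : Fin n → ℂ) :
    L v = ∑ j, v j * L (Pi.single j 1) := by
  have h := LinearMap.pi_apply_eq_sum_univ (L.toLinearMap) v
  simp only [ContinuousLinearMap.coe_coe, smul_eq_mul] at h
  rw [h]
  refine Finset.sum_congr rfl fun j _ => ?_
  congr 2
  funext k
  simp [Pi.single_apply, eq_comm]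

theorem analyticAt_normSq {E : Type*} [NormedAddCommGroup E] [NormedSpace ℝ E] [NormedSpace ℂ E]
    [IsScalarTower ℝ ℂ E] {φ : E → ℂ} {x : E} (h : AnalyticAt ℂ φ x) :
    AnalyticAt ℝ (fun x => Complex.normSq (φ x)) x := by
  have h1 : AnalyticAt ℝ φ x := h.restrictScalars
  have h2 : AnalyticAt ℝ (fun x => (φ x).re) x := (Complex.reCLM.analyticAt _).comp h1
  have h3 : AnalyticAt ℝ (fun x => (φ x).im) x := (Complex.imCLM.analyticAt _).comp h1
  have h4 := (h2.mul h2).add (h3.mul h3)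
  exact h4

theorem normSq_le_of_sum {ι : Type*} [Fintype ι] {a : ι → ℂ} {b R : ℝ}
    (hb : 0 ≤ b) (h : b + ∑ i, Complex.normSq (a i) ≤ R) (i : ι) : ‖a i‖ ^ 2 ≤ R := by
  rw [Complex.sq_norm]
  have := Finset.single_le_sum (f := fun i => Complex.normSq (a i))
    (fun i _ => Complex.normSq_nonneg _) (Finset.mem_univ i)
  linarith

/-- The arcs along which `F` and the minors are small. -/
theorem exists_arc {F : (Fin n → ℂ) × ℂ → ℂ} {f g : (Fin n → ℂ) → ℂ}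
    (aF : AnalyticAt ℂ F (0, 0)) (af : AnalyticAt ℂ f 0) (ag : AnalyticAt ℂ g 0) {K : ℕ}
    (hK : K ≠ 0)
    (hcon : ∃ᶠ p in 𝓝 ((0 : Fin n → ℂ), (0 : ℂ)),
      p.1 ≠ 0 ∧ F p = 0 ∧ ∀ i j, mnr f g p.1 i j = 0) :
    ∃ (σ : ℝ → (Fin n → ℂ) × ℂ) (X : ℂ → Fin n → ℂ), AnalyticAt ℝ σ 0 ∧ σ 0 = 0 ∧
      AnalyticAt ℂ X 0 ∧ X 0 = 0 ∧ (∀ᶠ s : ℝ in 𝓝[>] 0, X (s : ℂ) = (σ s).1) ∧
      ∃ a : ℕ, a ≠ 0 ∧ ∃ c C B : ℝ, 0 < c ∧ 0 < C ∧ 0 < B ∧
        (∀ᶠ s : ℝ in 𝓝[>] 0, c * s ^ a ≤ ‖X (s : ℂ)‖ ∧ ‖X (s : ℂ)‖ ≤ C * s ^ a ∧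
          ‖F (σ s)‖ ≤ B * s ^ (a * K) ∧ ∀ i j, ‖mnr f g (X (s : ℂ)) i j‖ ≤ B * s ^ (a * K)) := by
  have hpos : ∀ᶠ s : ℝ in 𝓝[>] 0, 0 < s := self_mem_nhdsWithin
  let G : (Fin n → ℂ) × ℂ → ℝ := fun p =>
    Complex.normSq (F p) + ∑ q : Fin n × Fin n, Complex.normSq (mnr f g p.1 q.1 q.2) -
      (∑ i, Complex.normSq (p.1 i)) ^ K
  have hfst : AnalyticAt ℂ (fun p : (Fin n → ℂ) × ℂ => p.1) 0 := analyticAt_fst
  have hG : AnalyticAt ℝ G 0 := by
    refine AnalyticAt.sub (AnalyticAt.add (analyticAt_normSq aF) ?_) (AnalyticAt.pow ?_ K)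
    · refine Finset.analyticAt_fun_sum _ fun q _ => analyticAt_normSq ?_
      have h1 : AnalyticAt ℂ (fun x => mnr f g x q.1 q.2)
          ((fun p : (Fin n → ℂ) × ℂ => p.1) 0) := analyticAt_mnr af ag _ _
      exact AnalyticAt.comp (g := fun x => mnr f g x q.1 q.2)
        (f := fun p : (Fin n → ℂ) × ℂ => p.1) h1 hfst
    · refine Finset.analyticAt_fun_sum _ fun i _ => analyticAt_normSq ?_
      have h1 : AnalyticAt ℂ (fun x : Fin n → ℂ => x i)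
          ((fun p : (Fin n → ℂ) × ℂ => p.1) 0) :=
        (ContinuousLinearMap.proj (R := ℂ) (φ := fun _ : Fin n => ℂ) i).analyticAt _
      exact AnalyticAt.comp (g := fun x : Fin n → ℂ => x i)
        (f := fun p : (Fin n → ℂ) × ℂ => p.1) h1 hfst
  have hfreq : ∃ᶠ p in 𝓝 (0 : (Fin n → ℂ) × ℂ), G p < 0 := by
    refine hcon.mono fun p hp => ?_
    obtain ⟨h1, h2, h3⟩ := hp
    have h4 : 0 < ∑ i, Complex.normSq (p.1 i) := by
      obtain ⟨i, hi⟩ := Function.ne_iff.1 h1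
      refine Finset.sum_pos' (fun i _ => Complex.normSq_nonneg _) ⟨i, Finset.mem_univ i, ?_⟩
      exact Complex.normSq_pos.2 hi
    have h5 := pow_pos h4 K
    change Complex.normSq (F p) + ∑ q : Fin n × Fin n, Complex.normSq (mnr f g p.1 q.1 q.2) -
      (∑ i, Complex.normSq (p.1 i)) ^ K < 0
    rw [h2]
    simp only [h3, map_zero, Finset.sum_const_zero, add_zero, zero_sub]
    linarith
  obtain ⟨σ, hσ, hσ0, hneg⟩ := H744.curve_selection hG hfreq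
  have hσ1 : AnalyticAt ℝ (fun s => (σ s).1) 0 := by
    have h1 : AnalyticAt ℝ (fun p : (Fin n → ℂ) × ℂ => p.1) (σ 0) := analyticAt_fst
    exact AnalyticAt.comp (g := fun p : (Fin n → ℂ) × ℂ => p.1) (f := σ) h1 hσ
  obtain ⟨X, hX, hXσ⟩ := exists_complexify hσ1
  have hX0 : X 0 = 0 := by
    have := hXσ.self_of_nhds
    rw [hσ0] at this
    simpa using this
  have hXσ' : ∀ᶠ s : ℝ in 𝓝[>] 0, X (s : ℂ) = (σ s).1 := nhdsWithin_le_nhds hXσ
  have hne : ∀ᶠ s : ℝ in 𝓝[>] 0, X (s : ℂ) ≠ 0 := by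
    filter_upwards [hXσ', hneg] with s h1 h2 h3
    rw [h1] at h3
    have h4 : Complex.normSq (F (σ s)) +
      ∑ q : Fin n × Fin n, Complex.normSq (mnr f g (σ s).1 q.1 q.2) -
      (∑ i, Complex.normSq ((σ s).1 i)) ^ K < 0 := h2
    rw [h3] at h4
    simp only [Pi.zero_apply, map_zero, Finset.sum_const_zero, zero_pow hK, sub_zero] at h4
    have h5 : 0 ≤ Complex.normSq (F (σ s)) := Complex.normSq_nonneg _
    have h6 : 0 ≤ ∑ q : Fin n × Fin n, Complex.normSq (mnr f g 0 q.1 q.2) :=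
      Finset.sum_nonneg fun _ _ => Complex.normSq_nonneg _
    linarith
  obtain ⟨a, Y, hY, hY0, hXY⟩ := exists_order hX hne.frequently
  obtain ⟨c, C, hc, hC, hb⟩ := order_bounds hY hY0 hXY
  have ha : a ≠ 0 := by
    rintro rfl
    have := hXY.self_of_nhds
    rw [hX0, pow_zero, one_smul] at this
    exact hY0 this.symm
  set B : ℝ := (n * C ^ 2 + 1) ^ K with hB
  have hB1 : 1 ≤ B := one_le_pow₀ (by nlinarith [sq_nonneg C, (Nat.cast_nonneg n : (0 : ℝ) ≤ n)])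
  refine ⟨σ, X, hσ, hσ0, hX, hX0, hXσ', a, ha, c, C, B, hc, hC, by linarith, ?_⟩
  filter_upwards [hpos, hXσ', hneg, tendsto_pos.eventually hb] with s h1 h2 h3 h4
  have hs : ‖(s : ℂ)‖ = s := by rw [Complex.norm_real, Real.norm_of_nonneg h1.le]
  rw [hs] at h4
  have h5 : Complex.normSq (F (σ s)) +
      ∑ q : Fin n × Fin n, Complex.normSq (mnr f g (σ s).1 q.1 q.2) -
      (∑ i, Complex.normSq ((σ s).1 i)) ^ K < 0 := h3
  rw [← h2] at h5
  have h6 : (∑ i, Complex.normSq (X (s : ℂ) i)) ≤ n * (C * s ^ a) ^ 2 := by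
    calc (∑ i, Complex.normSq (X (s : ℂ) i)) ≤ ∑ _i : Fin n, (C * s ^ a) ^ 2 := by
          refine Finset.sum_le_sum fun i _ => ?_
          rw [← Complex.sq_norm]
          exact pow_le_pow_left₀ (norm_nonneg _) ((norm_le_pi_norm _ i).trans h4.2) 2
      _ = n * (C * s ^ a) ^ 2 := by simp
  have h7 : (∑ i, Complex.normSq (X (s : ℂ) i)) ^ K ≤ (B * s ^ (a * K)) ^ 2 := by
    calc (∑ i, Complex.normSq (X (s : ℂ) i)) ^ K ≤ (n * (C * s ^ a) ^ 2) ^ K :=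
          pow_le_pow_left₀ (Finset.sum_nonneg fun _ _ => Complex.normSq_nonneg _) h6 K
      _ = (n * C ^ 2) ^ K * (s ^ (a * K)) ^ 2 := by
          ring
      _ ≤ B * (s ^ (a * K)) ^ 2 := by
          refine mul_le_mul_of_nonneg_right ?_ (by positivity)
          exact pow_le_pow_left₀ (by positivity) (by linarith) K
      _ ≤ B ^ 2 * (s ^ (a * K)) ^ 2 := by
          refine mul_le_mul_of_nonneg_right ?_ (by positivity)
          nlinarith
      _ = (B * s ^ (a * K)) ^ 2 := by ring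
  have h8 : 0 ≤ B * s ^ (a * K) := by positivity
  refine ⟨h4.1, h4.2, ?_, fun i j => ?_⟩
  · rw [← pow_le_pow_iff_left₀ (norm_nonneg _) h8 two_ne_zero, Complex.sq_norm]
    have h9 : 0 ≤ ∑ q : Fin n × Fin n, Complex.normSq (mnr f g (X (s : ℂ)) q.1 q.2) :=
      Finset.sum_nonneg fun _ _ => Complex.normSq_nonneg _
    linarith
  · rw [← pow_le_pow_iff_left₀ (norm_nonneg _) h8 two_ne_zero]
    exact normSq_le_of_sum (a := fun q : Fin n × Fin n => mnr f g (X (s : ℂ)) q.1 q.2)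
      (Complex.normSq_nonneg (F (σ s))) (by linarith) (i, j)

/-- Constants. -/
theorem pow_small {c P : ℝ} (hc : 0 < c) (hP : 0 ≤ P) :
    ∀ᶠ s : ℝ in 𝓝[>] 0, ∀ k l : ℕ, l < k → P * s ^ k ≤ c * s ^ l := by
  have h1 : ∀ᶠ s : ℝ in 𝓝[>] 0, s < min 1 (c / (P + 1)) :=
    nhdsWithin_le_nhds (Iio_mem_nhds (by positivity))
  have hpos : ∀ᶠ s : ℝ in 𝓝[>] 0, 0 < s := self_mem_nhdsWithin
  filter_upwards [h1, hpos] with s h2 h3 k l hkl
  obtain ⟨d, rfl⟩ : ∃ d, k = l + 1 + d := ⟨k - (l + 1), by omega⟩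
  have h4 : s ^ (l + 1 + d) ≤ s ^ (l + 1) :=
    pow_le_pow_of_le_one h3.le (h2.le.trans (min_le_left _ _)) (by omega)
  have h5 : s ≤ c / (P + 1) := h2.le.trans (min_le_right _ _)
  have h6 : P * s ≤ c := by
    rw [le_div_iff₀ (by positivity)] at h5
    nlinarith
  calc P * s ^ (l + 1 + d) ≤ P * s ^ (l + 1) := mul_le_mul_of_nonneg_left h4 hP
    _ = (P * s) * s ^ l := by ring
    _ ≤ c * s ^ l := mul_le_mul_of_nonneg_right h6 (by positivity)

/-- **No critical arcs on the surfaces.** -/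
theorem no_bad {F : (Fin n → ℂ) × ℂ → ℂ} {f g : (Fin n → ℂ) → ℂ}
    {α β : (Fin n → ℂ) × ℂ → ℂ}
    (aF : AnalyticAt ℂ F (0, 0)) (af : AnalyticAt ℂ f 0) (ag : AnalyticAt ℂ g 0)
    (f0 : f 0 = 0) (g0 : g 0 = 0) (F0 : ∀ᶠ t in 𝓝 (0 : ℂ), F (0, t) = 0)
    (hα : ContinuousAt α (0, 0)) (hβ : ContinuousAt β (0, 0))
    (hd : ∀ᶠ p in 𝓝 ((0 : Fin n → ℂ), (0 : ℂ)), ∀ v,
      dX F p v = α p * fderiv ℂ f p.1 v + β p * fderiv ℂ g p.1 v)
    {m : ℕ} {C₁ : ℝ} (L1 : ∀ᶠ p in 𝓝 ((0 : Fin n → ℂ), (0 : ℂ)),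
      ‖p.1‖ ^ m ≤ C₁ * ∑ i, ‖dX F p (Pi.single i 1)‖)
    {m₂ : ℕ} {C₂ : ℝ} (L2 : ∀ᶠ x in 𝓝 (0 : Fin n → ℂ),
      ‖x‖ ^ m₂ ≤ C₂ * (‖f x‖ + ‖g x‖ + ∑ q : Fin n × Fin n, ‖mnr f g x q.1 q.2‖)) :
    ∀ᶠ p in 𝓝 ((0 : Fin n → ℂ), (0 : ℂ)), p.1 ≠ 0 → F p = 0 → ∃ i j, mnr f g p.1 i j ≠ 0 := by
  by_contra hcon
  have hcon' : ∃ᶠ p in 𝓝 ((0 : Fin n → ℂ), (0 : ℂ)),
      p.1 ≠ 0 ∧ F p = 0 ∧ ∀ i j, mnr f g p.1 i j = 0 := by
    rw [not_eventually] at hcon
    refine hcon.mono fun p hp => ?_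
    push Not at hp
    exact hp
  set K := m + m₂ + 2 with hK
  obtain ⟨σ, X, hσ, hσ0, hX, hX0, hXσ, a, ha, c, C, B, hc, hC, hB, hb⟩ :=
    exists_arc aF af ag (K := K) (by omega) hcon'
  have ha1 : 1 ≤ a := Nat.one_le_iff_ne_zero.2 ha
  have hpos : ∀ᶠ s : ℝ in 𝓝[>] 0, 0 < s := self_mem_nhdsWithin
  have hXt : Tendsto (fun s : ℝ => X (s : ℂ)) (𝓝[>] 0) (𝓝 0) := by
    have h1 := hX.continuousAt.tendsto
    rw [hX0] at h1
    exact h1.comp tendsto_pos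
  -- the values of `f` and `g` along the arc
  have hXc : Tendsto X (𝓝 0) (𝓝 0) := by
    have h1 := hX.continuousAt.tendsto
    rwa [hX0] at h1
  have afX : AnalyticAt ℂ (fun z => f (X z)) 0 := by
    have : AnalyticAt ℂ f (X 0) := by rwa [hX0]
    exact AnalyticAt.comp (g := f) (f := X) this hX
  have agX : AnalyticAt ℂ (fun z => g (X z)) 0 := by
    have : AnalyticAt ℂ g (X 0) := by rwa [hX0]
    exact AnalyticAt.comp (g := g) (f := X) this hX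
  let w : ℂ → ℂ × ℂ := fun z => (f (X z), g (X z))
  have hw : AnalyticAt ℂ w 0 := afX.prod agX
  have hw0 : w 0 = 0 := by simp [w, hX0, f0, g0]
  have hlow : ∃ c₃ : ℝ, 0 < c₃ ∧ ∀ᶠ s : ℝ in 𝓝[>] 0, c₃ * s ^ (a * m₂) ≤ ‖w (s : ℂ)‖ := by
    set C' := max C₂ 1 with hC'
    have hC'0 : 0 < C' := lt_of_lt_of_le one_pos (le_max_right _ _)
    set c₃ := c ^ m₂ / (4 * C') with hc₃
    have hc₃0 : 0 < c₃ := by positivity
    refine ⟨c₃, hc₃0, ?_⟩
    filter_upwards [hpos, hb, hXt.eventually L2,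
      pow_small (c := 2 * c₃) (P := (n * n : ℕ) * B) (by positivity) (by positivity)]
      with s h1 h2 h3 h4
    obtain ⟨h5, h6, h7, h8⟩ := h2
    have h9 : (c * s ^ a) ^ m₂ ≤ ‖X (s : ℂ)‖ ^ m₂ := pow_le_pow_left₀ (by positivity) h5 _
    have h10 : ∑ q : Fin n × Fin n, ‖mnr f g (X (s : ℂ)) q.1 q.2‖ ≤
        (n * n : ℕ) * B * s ^ (a * K) := by
      calc _ ≤ ∑ _q : Fin n × Fin n, B * s ^ (a * K) :=
            Finset.sum_le_sum fun q _ => h8 q.1 q.2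
        _ = _ := by
          rw [Finset.sum_const, Finset.card_univ, Fintype.card_prod, Fintype.card_fin,
            nsmul_eq_mul, mul_assoc]
    have h11 := h4 (a * K) (a * m₂) (by
      refine Nat.mul_lt_mul_of_pos_left (by omega) (by omega))
    have h12 : ‖f (X (s : ℂ))‖ ≤ ‖w (s : ℂ)‖ := norm_fst_le (w (s : ℂ))
    have h13 : ‖g (X (s : ℂ))‖ ≤ ‖w (s : ℂ)‖ := norm_snd_le (w (s : ℂ))
    have h14 : 0 ≤ ‖f (X (s : ℂ))‖ + ‖g (X (s : ℂ))‖ +
        ∑ q : Fin n × Fin n, ‖mnr f g (X (s : ℂ)) q.1 q.2‖ := by positivity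
    have h15 := h3.trans (mul_le_mul_of_nonneg_right (le_max_left C₂ 1) h14)
    have h16 : (c * s ^ a) ^ m₂ ≤ C' * (2 * ‖w (s : ℂ)‖ + 2 * c₃ * s ^ (a * m₂)) := by
      refine (h9.trans h15).trans ?_
      refine mul_le_mul_of_nonneg_left ?_ hC'0.le
      linarith
    have h17 : (c * s ^ a) ^ m₂ = 4 * C' * c₃ * s ^ (a * m₂) := by
      rw [mul_pow, ← pow_mul, hc₃]
      field_simp
    rw [h17] at h16
    have h18 : C' * (4 * c₃ * s ^ (a * m₂)) ≤ C' * (2 * ‖w (s : ℂ)‖ + 2 * c₃ * s ^ (a * m₂)) := by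
      linarith
    have h19 := le_of_mul_le_mul_left h18 hC'0
    linarith
  obtain ⟨c₃, hc₃, hlow⟩ := hlow
  obtain ⟨c₄, hc₄, hdw⟩ := deriv_lower hw hw0 hc₃ hlow
  -- derivatives
  have hX' : AnalyticAt ℂ (deriv X) 0 := hX.deriv
  have hdf : ∀ᶠ z in 𝓝 (0 : ℂ), deriv w z =
      (fderiv ℂ f (X z) (deriv X z), fderiv ℂ g (X z) (deriv X z)) := by
    filter_upwards [hX.eventually_analyticAt, hXc.eventually af.eventually_analyticAt,
      hXc.eventually ag.eventually_analyticAt] with z h1 h2 h3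
    have h4 : HasDerivAt (fun z => f (X z)) (fderiv ℂ f (X z) (deriv X z)) z :=
      h2.differentiableAt.hasFDerivAt.comp_hasDerivAt z h1.differentiableAt.hasDerivAt
    have h5 : HasDerivAt (fun z => g (X z)) (fderiv ℂ g (X z) (deriv X z)) z :=
      h3.differentiableAt.hasFDerivAt.comp_hasDerivAt z h1.differentiableAt.hasDerivAt
    exact (h4.prodMk h5).deriv
  let h : ℂ × ℂ → ℂ := fun p => F (X p.1, p.2)
  have hXp : AnalyticAt ℂ (fun p : ℂ × ℂ => (X p.1, p.2)) (0, 0) := by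
    have h1 : AnalyticAt ℂ (fun p : ℂ × ℂ => X p.1) (0, 0) :=
      AnalyticAt.comp (g := X) (f := fun p : ℂ × ℂ => p.1) (x := ((0 : ℂ), (0 : ℂ))) hX
        analyticAt_fst
    exact h1.prod analyticAt_snd
  have hXp0 : (fun p : ℂ × ℂ => (X p.1, p.2)) (0, 0) = (0, 0) := by simp [hX0]
  have hXpt : Tendsto (fun p : ℂ × ℂ => (X p.1, p.2)) (𝓝 (0, 0)) (𝓝 (0, 0)) := by
    have h1 := hXp.continuousAt.tendsto
    simp only [hX0] at h1
    exact h1
  have hh : AnalyticAt ℂ h (0, 0) := by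
    have h1 : AnalyticAt ℂ F ((fun p : ℂ × ℂ => (X p.1, p.2)) (0, 0)) := by rwa [hXp0]
    exact AnalyticAt.comp (g := F) (f := fun p : ℂ × ℂ => (X p.1, p.2)) h1 hXp
  have hh0 : ∀ᶠ t in 𝓝 (0 : ℂ), h (0, t) = 0 := by
    filter_upwards [F0] with t ht
    change F (X 0, t) = 0
    rw [hX0, ht]
  have hfst : Tendsto (fun p : ℂ × ℂ => p.1) (𝓝 (0, 0)) (𝓝 0) :=
    (continuous_fst (X := ℂ) (Y := ℂ)).tendsto (0, 0)
  have hdh : ∀ᶠ p in 𝓝 ((0 : ℂ), (0 : ℂ)), fderiv ℂ h p (1, 0) =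
      dX F (X p.1, p.2) (deriv X p.1) := by
    filter_upwards [hXpt.eventually aF.eventually_analyticAt,
      hfst.eventually hX.eventually_analyticAt] with p h1 h2
    have h3 : HasFDerivAt (fun p : ℂ × ℂ => (X p.1, p.2))
        (((ContinuousLinearMap.toSpanSingleton ℂ (deriv X p.1)).comp
          (ContinuousLinearMap.fst ℂ ℂ ℂ)).prod (ContinuousLinearMap.snd ℂ ℂ ℂ)) p := by
      have h4 : HasFDerivAt (fun p : ℂ × ℂ => X p.1)
          ((ContinuousLinearMap.toSpanSingleton ℂ (deriv X p.1)).comp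
          (ContinuousLinearMap.fst ℂ ℂ ℂ)) p :=
        h2.differentiableAt.hasDerivAt.hasFDerivAt.comp p hasFDerivAt_fst
      exact h4.prodMk hasFDerivAt_snd
    have h5 : HasFDerivAt h ((fderiv ℂ F (X p.1, p.2)).comp
        (((ContinuousLinearMap.toSpanSingleton ℂ (deriv X p.1)).comp
          (ContinuousLinearMap.fst ℂ ℂ ℂ)).prod (ContinuousLinearMap.snd ℂ ℂ ℂ))) p :=
      HasFDerivAt.comp (g := F) p h1.differentiableAt.hasFDerivAt h3
    rw [h5.fderiv, dX_apply]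
    simp
  -- bounds of the data
  have bd : ∀ {φ : (Fin n → ℂ) × ℂ → ℂ}, ContinuousAt φ (0, 0) →
      ∃ A : ℝ, 0 ≤ A ∧ ∀ᶠ p in 𝓝 ((0 : Fin n → ℂ), (0 : ℂ)), ‖φ p‖ ≤ A := by
    intro φ hφ
    refine ⟨‖φ (0, 0)‖ + 1, by positivity, ?_⟩
    have := hφ.norm.eventually_lt (continuousAt_const (y := ‖φ (0, 0)‖ + 1)) (by simp)
    filter_upwards [this] with p hp using hp.le
  have bdx : ∀ {φ : (Fin n → ℂ) → ℂ}, ContinuousAt φ 0 →
      ∃ A : ℝ, 0 ≤ A ∧ ∀ᶠ x in 𝓝 (0 : Fin n → ℂ), ‖φ x‖ ≤ A := by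
    intro φ hφ
    refine ⟨‖φ 0‖ + 1, by positivity, ?_⟩
    have := hφ.norm.eventually_lt (continuousAt_const (y := ‖φ 0‖ + 1)) (by simp)
    filter_upwards [this] with p hp using hp.le
  obtain ⟨A₁, hA₁, hα'⟩ := bd hα
  obtain ⟨A₂, hA₂, hβ'⟩ := bd hβ
  choose Gf hGf hGf' using fun i : Fin n =>
    bdx (analyticAt_apply af (Pi.single i 1)).continuousAt
  choose Gg hGg hGg' using fun i : Fin n =>
    bdx (analyticAt_apply ag (Pi.single i 1)).continuousAt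
  have hXd : ∃ X₁ : ℝ, 0 ≤ X₁ ∧ ∀ᶠ z in 𝓝 (0 : ℂ), ‖deriv X z‖ ≤ X₁ := by
    refine ⟨‖deriv X 0‖ + 1, by positivity, ?_⟩
    have := hX'.continuousAt.norm.eventually_lt
      (continuousAt_const (y := ‖deriv X 0‖ + 1)) (by simp)
    filter_upwards [this] with p hp using hp.le
  obtain ⟨X₁, hX₁, hXd⟩ := hXd
  set A₀ := max A₁ A₂ with hA₀
  set G₀ := ∑ i, (Gf i + Gg i) with hG₀
  have hA₀0 : 0 ≤ A₀ := hA₁.trans (le_max_left _ _)
  have hG₀0 : 0 ≤ G₀ := Finset.sum_nonneg fun i _ => add_nonneg (hGf i) (hGg i)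
  have hGfi : ∀ i, Gf i ≤ G₀ := fun i => (le_add_of_nonneg_right (hGg i)).trans
    (Finset.single_le_sum (f := fun i => Gf i + Gg i)
      (fun i _ => add_nonneg (hGf i) (hGg i)) (Finset.mem_univ i))
  have hGgi : ∀ i, Gg i ≤ G₀ := fun i => (le_add_of_nonneg_left (hGf i)).trans
    (Finset.single_le_sum (f := fun i => Gf i + Gg i)
      (fun i _ => add_nonneg (hGf i) (hGg i)) (Finset.mem_univ i))
  set C₁' := max C₁ 1 with hC₁'
  have hC₁0 : 0 < C₁' := lt_of_lt_of_le one_pos (le_max_right _ _)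
  set P := C₁' * (n * (A₀ * (n * (X₁ * B)))) with hP
  set Q := C₁' * (n * G₀) + 1 with hQ
  have hP0 : 0 ≤ P := by positivity
  have hQ0 : 0 < Q := by positivity
  set c₅ := c₄ * c ^ m with hc₅
  have hc₅0 : 0 < c₅ := by positivity
  -- the derivative is large
  have key : ∀ᶠ p : ℝ × ℂ in 𝓝 (0, 0), 0 < p.1 →
      c₅ / (2 * Q) * p.1 ^ (a * (m + m₂)) ≤ ‖fderiv ℂ h ((p.1 : ℂ), p.2) (1, 0)‖ := by
    have t1 : Tendsto (fun p : ℝ × ℂ => p.1) (𝓝 (0, 0)) (𝓝 0) :=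
      (continuous_fst (X := ℝ) (Y := ℂ)).tendsto (0, 0)
    have t2 : Tendsto (fun p : ℝ × ℂ => (X (p.1 : ℂ), p.2)) (𝓝 (0, 0)) (𝓝 (0, 0)) :=
      hXpt.comp tendsto_incl
    have t3 : Tendsto (fun p : ℝ × ℂ => X (p.1 : ℂ)) (𝓝 (0, 0)) (𝓝 0) :=
      (continuous_fst (X := Fin n → ℂ) (Y := ℂ)).tendsto (0, 0) |>.comp t2
    have t4 : Tendsto (fun p : ℝ × ℂ => (p.1 : ℂ)) (𝓝 (0, 0)) (𝓝 0) :=
      hfst.comp tendsto_incl
    filter_upwards [t1.eventually (eventually_nhdsWithin_iff.1 hb),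
      t1.eventually (eventually_nhdsWithin_iff.1 hdw),
      t1.eventually (eventually_nhdsWithin_iff.1
        (pow_small (c := c₅ / 2) (P := P) (by positivity) hP0)),
      tendsto_incl.eventually hdh, t2.eventually hd, t2.eventually L1, t2.eventually hα',
      t2.eventually hβ', t3.eventually (eventually_all.2 hGf'),
      t3.eventually (eventually_all.2 hGg'), t4.eventually hXd, t4.eventually hdf]
      with p e1 e2 e3 e4 e5 e6 e7 e8 e9 e10 e11 e12 hp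
    obtain ⟨e13, e14, e15, e16⟩ := e1 hp
    have e17 := e2 hp
    have e18 := e3 hp (a * K) (a * (m + m₂))
      (Nat.mul_lt_mul_of_pos_left (by omega) (by omega))
    set x := X (p.1 : ℂ) with hx
    set ξ := deriv X (p.1 : ℂ) with hξ
    set D := fderiv ℂ h ((p.1 : ℂ), p.2) (1, 0) with hD
    set u := fderiv ℂ f x ξ with hu
    set v := fderiv ℂ g x ξ with hv
    have e19 : D = α (x, p.2) * u + β (x, p.2) * v := by rw [e4]; exact e5 ξ
    have e20 : u = ∑ j, ξ j * fderiv ℂ f x (Pi.single j 1) := apply_eq_sum _ _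
    have e21 : v = ∑ j, ξ j * fderiv ℂ g x (Pi.single j 1) := apply_eq_sum _ _
    have e22 : ∀ i, ‖∑ j, ξ j * mnr f g x i j‖ ≤ n * (X₁ * (B * p.1 ^ (a * K))) := by
      intro i
      calc ‖∑ j, ξ j * mnr f g x i j‖ ≤ ∑ _j : Fin n, X₁ * (B * p.1 ^ (a * K)) := by
            refine (norm_sum_le _ _).trans (Finset.sum_le_sum fun j _ => ?_)
            rw [norm_mul]
            exact mul_le_mul ((norm_le_pi_norm _ j).trans e11) (e16 i j) (norm_nonneg _) hX₁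
        _ = _ := by simp
    have e23 : ∀ i, v * dX F (x, p.2) (Pi.single i 1) =
        α (x, p.2) * (∑ j, ξ j * mnr f g x i j) + D * fderiv ℂ g x (Pi.single i 1) := by
      intro i
      have : ∑ j, ξ j * mnr f g x i j =
          v * fderiv ℂ f x (Pi.single i 1) - u * fderiv ℂ g x (Pi.single i 1) := by
        rw [e20, e21, Finset.sum_mul, Finset.sum_mul, ← Finset.sum_sub_distrib]
        refine Finset.sum_congr rfl fun j _ => ?_
        rw [mnr]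
        ring
      have e5' := e5 (Pi.single i 1)
      rw [this, e19, e5']
      ring
    have e24 : ∀ i, u * dX F (x, p.2) (Pi.single i 1) =
        -(β (x, p.2) * (∑ j, ξ j * mnr f g x i j)) + D * fderiv ℂ f x (Pi.single i 1) := by
      intro i
      have : ∑ j, ξ j * mnr f g x i j =
          v * fderiv ℂ f x (Pi.single i 1) - u * fderiv ℂ g x (Pi.single i 1) := by
        rw [e20, e21, Finset.sum_mul, Finset.sum_mul, ← Finset.sum_sub_distrib]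
        refine Finset.sum_congr rfl fun j _ => ?_
        rw [mnr]
        ring
      have e5' := e5 (Pi.single i 1)
      rw [this, e19, e5']
      ring
    set S₀ := n * (X₁ * (B * p.1 ^ (a * K))) with hS₀
    have hS₀0 : 0 ≤ S₀ := by positivity
    have e25 : ∀ i, ‖v‖ * ‖dX F (x, p.2) (Pi.single i 1)‖ ≤ A₀ * S₀ + G₀ * ‖D‖ := by
      intro i
      rw [← norm_mul, e23 i]
      refine (norm_add_le _ _).trans ?_
      rw [norm_mul, norm_mul, mul_comm G₀]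
      refine add_le_add (mul_le_mul (e7.trans (le_max_left _ _)) (e22 i) (norm_nonneg _) hA₀0)
        (mul_le_mul_of_nonneg_left ((e10 i).trans (hGgi i)) (norm_nonneg _))
    have e26 : ∀ i, ‖u‖ * ‖dX F (x, p.2) (Pi.single i 1)‖ ≤ A₀ * S₀ + G₀ * ‖D‖ := by
      intro i
      rw [← norm_mul, e24 i]
      refine (norm_add_le _ _).trans ?_
      rw [norm_neg, norm_mul, norm_mul, mul_comm G₀]
      refine add_le_add (mul_le_mul (e8.trans (le_max_right _ _)) (e22 i) (norm_nonneg _) hA₀0)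
        (mul_le_mul_of_nonneg_left ((e9 i).trans (hGfi i)) (norm_nonneg _))
    have e27 : ∀ i, ‖deriv w (p.1 : ℂ)‖ * ‖dX F (x, p.2) (Pi.single i 1)‖ ≤
        A₀ * S₀ + G₀ * ‖D‖ := by
      intro i
      rw [e12]
      -- the norm on pairs is the maximum
      rw [Prod.norm_def]
      rcases max_choice ‖u‖ ‖v‖ with h' | h'
      · simp only [h']
        exact e26 i
      · simp only [h']
        exact e25 i
    have e28 : ‖deriv w (p.1 : ℂ)‖ * ∑ i, ‖dX F (x, p.2) (Pi.single i 1)‖ ≤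
        n * (A₀ * S₀ + G₀ * ‖D‖) := by
      rw [Finset.mul_sum]
      calc _ ≤ ∑ _i : Fin n, (A₀ * S₀ + G₀ * ‖D‖) := Finset.sum_le_sum fun i _ => e27 i
        _ = _ := by rw [Finset.sum_const, Finset.card_univ, Fintype.card_fin, nsmul_eq_mul]
    have hsum0 : 0 ≤ ∑ i, ‖dX F (x, p.2) (Pi.single i 1)‖ :=
      Finset.sum_nonneg fun _ _ => norm_nonneg _
    have e29 : (c * p.1 ^ a) ^ m ≤ C₁' * ∑ i, ‖dX F (x, p.2) (Pi.single i 1)‖ :=
      (pow_le_pow_left₀ (by positivity) e13 m).trans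
        (e6.trans (mul_le_mul_of_nonneg_right (le_max_left _ _) hsum0))
    have e30 : c₅ * p.1 ^ (a * (m + m₂)) ≤ C₁' * (n * (A₀ * S₀ + G₀ * ‖D‖)) := by
      calc c₅ * p.1 ^ (a * (m + m₂)) = (c₄ * p.1 ^ (a * m₂)) * (c * p.1 ^ a) ^ m := by
            rw [hc₅]; ring
        _ ≤ ‖deriv w (p.1 : ℂ)‖ * (C₁' * ∑ i, ‖dX F (x, p.2) (Pi.single i 1)‖) :=
            mul_le_mul e17 e29 (by positivity) (norm_nonneg _)
        _ = C₁' * (‖deriv w (p.1 : ℂ)‖ * ∑ i, ‖dX F (x, p.2) (Pi.single i 1)‖) := by ring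
        _ ≤ _ := mul_le_mul_of_nonneg_left e28 hC₁0.le
    have e31 : C₁' * (n * (A₀ * S₀ + G₀ * ‖D‖)) ≤
        c₅ / 2 * p.1 ^ (a * (m + m₂)) + Q * ‖D‖ := by
      have e32 : C₁' * (n * (A₀ * S₀ + G₀ * ‖D‖)) =
          P * p.1 ^ (a * K) + (C₁' * (n * G₀)) * ‖D‖ := by
        rw [hP, hS₀]; ring
      rw [e32]
      have e33 : (C₁' * (n * G₀)) * ‖D‖ ≤ Q * ‖D‖ :=
        mul_le_mul_of_nonneg_right (by rw [hQ]; linarith) (norm_nonneg _)
      linarith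
    have e34 : c₅ / 2 * p.1 ^ (a * (m + m₂)) ≤ Q * ‖D‖ := by linarith
    calc c₅ / (2 * Q) * p.1 ^ (a * (m + m₂)) = (c₅ / 2 * p.1 ^ (a * (m + m₂))) / Q := by
          field_simp
      _ ≤ (Q * ‖D‖) / Q := div_le_div_of_nonneg_right e34 hQ0.le
      _ = ‖D‖ := by field_simp
  obtain ⟨c', hc', hlow'⟩ := lower_of_deriv hh hh0 (by positivity) key
  -- the contradiction
  have hσt : Tendsto (fun s : ℝ => (s, (σ s).2)) (𝓝[>] 0) (𝓝 (0, 0)) := by
    have h1 : ContinuousAt (fun s : ℝ => (s, (σ s).2)) 0 :=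
      continuousAt_id.prodMk (continuousAt_snd.comp hσ.continuousAt)
    have h2 := h1.tendsto
    rw [hσ0] at h2
    exact h2.mono_left nhdsWithin_le_nhds
  have hfin : a * K ≤ a * (m + m₂) + 1 := by
    refine le_of_bounds (c := c') (C := B) hc' (Eventually.frequently ?_)
    filter_upwards [hpos, hb, hXσ, hσt.eventually hlow'] with s h1 h2 h3 h4
    have h5 := h4 h1
    have h6 : h ((s : ℂ), (σ s).2) = F (σ s) := by
      change F (X (s : ℂ), (σ s).2) = F (σ s)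
      rw [h3]
    rw [h6] at h5
    exact h5.trans h2.2.2.1
  have : a * K = a * (m + m₂) + 2 * a := by rw [hK]; ring
  omega

end Vale.Agent.P298.H974
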