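import Vale.Agent.P298.Bdl.B1
import Mathlib.Analysis.Complex.AbsMax

/-! Orders of vanishing of analytic arcs. -/

namespace Vale.Agent.P298.H974

open Filter Topology Metric

/-- Complexification of a real analytic arc. -/
theorem exists_complexify {E : Type*} [NormedAddCommGroup E] [NormedSpace ℂ E] [CompleteSpace E]
    {σ : ℝ → E} (hσ : AnalyticAt ℝ σ 0) :
    ∃ S : ℂ → E, AnalyticAt ℂ S 0 ∧ ∀ᶠ s : ℝ in 𝓝 0, S (s : ℂ) = σ s := by
  obtain ⟨p, R, hp⟩ := hσ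
  have hrad : 0 < p.radius := lt_of_lt_of_le hp.r_pos hp.r_le
  obtain ⟨C, ρ, hC, hρ, hb⟩ := p.le_mul_pow_of_radius_pos hrad
  let q : FormalMultilinearSeries ℂ ℂ E :=
    fun n => ContinuousMultilinearMap.mkPiRing ℂ (Fin n) (p.coeff n)
  have hqn : ∀ n, ‖q n‖ = ‖p n‖ := fun n => by
    rw [p.norm_apply_eq_norm_coef]
    exact ContinuousMultilinearMap.norm_mkPiRing _
  let ρ' : NNReal := ⟨ρ⁻¹, (inv_pos.2 hρ).le⟩
  have hqr : (ρ' : ENNReal) ≤ q.radius := by
    refine FormalMultilinearSeries.le_radius_of_bound _ C fun n => ?_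
    rw [hqn]
    change ‖p n‖ * ρ⁻¹ ^ n ≤ C
    calc ‖p n‖ * ρ⁻¹ ^ n ≤ (C * ρ ^ n) * ρ⁻¹ ^ n :=
          mul_le_mul_of_nonneg_right (hb n) (by positivity)
      _ = C := by
          rw [mul_assoc, ← mul_pow, mul_inv_cancel₀ hρ.ne', one_pow, mul_one]
  have hq0 : 0 < q.radius := by
    refine lt_of_lt_of_le ?_ hqr
    rw [ENNReal.coe_pos]
    exact_mod_cast (inv_pos.2 hρ : (0 : ℝ) < ρ⁻¹)
  have hQ := q.hasFPowerSeriesOnBall hq0
  refine ⟨q.sum, hQ.analyticAt, ?_⟩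
  have h1 : ∀ᶠ s in 𝓝 (0 : ℝ), s ∈ Metric.eball (0 : ℝ) R := Metric.eball_mem_nhds 0 hp.r_pos
  have h2 : ∀ᶠ s : ℝ in 𝓝 0, (s : ℂ) ∈ Metric.eball (0 : ℂ) q.radius := by
    have h3 : Tendsto (fun s : ℝ => (s : ℂ)) (𝓝 0) (𝓝 0) := by
      have := Complex.continuous_ofReal.tendsto (0 : ℝ)
      simpa using this
    exact h3.eventually (Metric.eball_mem_nhds 0 hq0)
  filter_upwards [h1, h2] with s hs1 hs2
  have e1 := hp.hasSum hs1
  have e2 := hQ.hasSum hs2
  rw [zero_add] at e1 e2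
  refine e2.unique ?_
  convert e1 using 1
  funext n
  rw [p.apply_eq_pow_smul_coeff]
  change ContinuousMultilinearMap.mkPiRing ℂ (Fin n) (p.coeff n) (fun _ => (s : ℂ)) = _
  rw [ContinuousMultilinearMap.mkPiRing_apply]
  simp only [Finset.prod_const, Finset.card_univ, Fintype.card_fin]
  rw [← Complex.ofReal_pow, Complex.coe_smul]

/-- A nonzero analytic germ factors. -/
theorem exists_order {E : Type*} [NormedAddCommGroup E] [NormedSpace ℂ E] {w : ℂ → E}
    (hw : AnalyticAt ℂ w 0) (h : ∃ᶠ s : ℝ in 𝓝[>] 0, w (s : ℂ) ≠ 0) :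
    ∃ (n : ℕ) (g : ℂ → E), AnalyticAt ℂ g 0 ∧ g 0 ≠ 0 ∧ ∀ᶠ z in 𝓝 (0 : ℂ), w z = z ^ n • g z := by
  have h1 : ¬ ∀ᶠ z in 𝓝 (0 : ℂ), w z = 0 := by
    intro hc
    have h2 : Tendsto (fun s : ℝ => (s : ℂ)) (𝓝[>] 0) (𝓝 0) := by
      have := (Complex.continuous_ofReal.tendsto (0 : ℝ)).mono_left
        (nhdsWithin_le_nhds (s := Set.Ioi (0 : ℝ)))
      simpa using this
    exact h (by
      filter_upwards [h2.eventually hc] with s hs
      exact not_not.2 hs)
  obtain ⟨n, g, h2, h3, h4⟩ := hw.exists_eventuallyEq_pow_smul_nonzero_iff.2 h1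
  exact ⟨n, g, h2, h3, by simpa using h4⟩

/-- Two-sided bounds of an analytic germ of order `n`, along the positive axis. -/
theorem order_bounds {E : Type*} [NormedAddCommGroup E] [NormedSpace ℂ E] {w g : ℂ → E} {n : ℕ}
    (hg : AnalyticAt ℂ g 0) (hg0 : g 0 ≠ 0) (h : ∀ᶠ z in 𝓝 (0 : ℂ), w z = z ^ n • g z) :
    ∃ c C : ℝ, 0 < c ∧ 0 < C ∧ ∀ᶠ z in 𝓝 (0 : ℂ),
      c * ‖z‖ ^ n ≤ ‖w z‖ ∧ ‖w z‖ ≤ C * ‖z‖ ^ n := by
  have hn : 0 < ‖g 0‖ := norm_pos_iff.2 hg0
  refine ⟨‖g 0‖ / 2, ‖g 0‖ + 1, by positivity, by positivity, ?_⟩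
  have h1 : ∀ᶠ z in 𝓝 (0 : ℂ), ‖g 0‖ / 2 < ‖g z‖ :=
    continuousAt_const.eventually_lt hg.continuousAt.norm (by simpa using half_lt_self hn)
  have h2 : ∀ᶠ z in 𝓝 (0 : ℂ), ‖g z‖ < ‖g 0‖ + 1 :=
    hg.continuousAt.norm.eventually_lt continuousAt_const (by simp)
  filter_upwards [h, h1, h2] with z e1 e2 e3
  rw [e1, norm_smul, norm_pow, mul_comm (‖z‖ ^ n)]
  constructor
  · exact mul_le_mul_of_nonneg_right e2.le (by positivity)
  · exact mul_le_mul_of_nonneg_right e3.le (by positivity)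

/-- Comparison of exponents. -/
theorem le_of_bounds {c C : ℝ} (hc : 0 < c) {n A : ℕ}
    (h : ∃ᶠ s in 𝓝[>] (0 : ℝ), c * s ^ A ≤ C * s ^ n) : n ≤ A := by
  by_contra hlt
  push Not at hlt
  have h1 : Tendsto (fun s : ℝ => C * s ^ (n - A)) (𝓝[>] 0) (𝓝 0) := by
    have h2 : Continuous fun s : ℝ => C * s ^ (n - A) := by fun_prop
    have h3 := (h2.tendsto 0).mono_left (nhdsWithin_le_nhds (s := Set.Ioi (0 : ℝ)))
    have h4 : C * (0 : ℝ) ^ (n - A) = 0 := by
      rw [zero_pow (by omega), mul_zero]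
    rwa [h4] at h3
  have h5 : ∀ᶠ s in 𝓝[>] (0 : ℝ), C * s ^ (n - A) < c := h1.eventually_lt_const hc
  obtain ⟨s, hs1, hs2, hs3⟩ := (h.and_eventually (h5.and self_mem_nhdsWithin)).exists
  have hs3' : 0 < s := hs3
  have h6 : C * s ^ n = (C * s ^ (n - A)) * s ^ A := by
    rw [mul_assoc, ← pow_add]
    congr 2
    omega
  rw [h6] at hs1
  have h7 : 0 < s ^ A := pow_pos hs3' A
  have := le_of_mul_le_mul_right hs1 h7
  linarith

/-- The positive axis tends to the origin. -/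
theorem tendsto_pos : Tendsto (fun s : ℝ => (s : ℂ)) (𝓝[>] 0) (𝓝 0) := by
  have := (Complex.continuous_ofReal.tendsto (0 : ℝ)).mono_left
    (nhdsWithin_le_nhds (s := Set.Ioi (0 : ℝ)))
  simpa using this

/-- A lower bound for a germ gives one for its derivative. -/
theorem deriv_lower {E : Type*} [NormedAddCommGroup E] [NormedSpace ℂ E] [CompleteSpace E]
    {w : ℂ → E} (hw : AnalyticAt ℂ w 0) (hw0 : w 0 = 0) {c : ℝ} (hc : 0 < c) {A : ℕ}
    (h : ∀ᶠ s : ℝ in 𝓝[>] 0, c * s ^ A ≤ ‖w (s : ℂ)‖) :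
    ∃ c' : ℝ, 0 < c' ∧ ∀ᶠ s : ℝ in 𝓝[>] 0, c' * s ^ A ≤ ‖deriv w (s : ℂ)‖ := by
  have hpos : ∀ᶠ s : ℝ in 𝓝[>] 0, 0 < s := self_mem_nhdsWithin
  obtain ⟨n, g, hg, hg0, hwg⟩ := exists_order hw (by
    refine Eventually.frequently ?_
    filter_upwards [h, hpos] with s h1 h2 h3
    rw [h3, norm_zero] at h1
    have := mul_pos hc (pow_pos h2 A)
    linarith)
  obtain ⟨c₁, C₁, hc₁, hC₁, hb⟩ := order_bounds hg hg0 hwg
  have hnA : n ≤ A := by
    refine le_of_bounds (c := c) (C := C₁) hc (Eventually.frequently ?_)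
    filter_upwards [h, hpos, tendsto_pos.eventually hb] with s h1 h2 h3
    have h4 := h1.trans h3.2
    rwa [Complex.norm_real, Real.norm_of_nonneg h2.le] at h4
  have hn : n ≠ 0 := by
    rintro rfl
    have := hwg.self_of_nhds
    rw [hw0, pow_zero, one_smul] at this
    exact hg0 this.symm
  obtain ⟨m, rfl⟩ := Nat.exists_eq_succ_of_ne_zero hn
  have hd : ∀ᶠ z in 𝓝 (0 : ℂ), deriv w z = z ^ m • ((m + 1 : ℂ) • g z + z • deriv g z) := by
    have h1 : ∀ᶠ z in 𝓝 (0 : ℂ), deriv w z = deriv (fun z => z ^ (m + 1) • g z) z := by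
      have : w =ᶠ[𝓝 0] fun z => z ^ (m + 1) • g z := hwg
      exact this.deriv
    filter_upwards [h1, hg.eventually_analyticAt] with z h2 h3
    rw [h2, ((hasDerivAt_pow (m + 1) z).fun_smul h3.differentiableAt.hasDerivAt).deriv]
    rw [smul_add, smul_smul, smul_smul, add_comm]
    congr 1
    · congr 1
      push_cast
      ring
  have hg1 : AnalyticAt ℂ (fun z => (m + 1 : ℂ) • g z + z • deriv g z) 0 := by
    have := hg.deriv
    fun_prop
  have hg10 : (fun z => (m + 1 : ℂ) • g z + z • deriv g z) 0 ≠ 0 := by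
    simp only [zero_smul, add_zero]
    exact smul_ne_zero (by exact_mod_cast Nat.succ_ne_zero m) hg0
  obtain ⟨c₂, C₂, hc₂, hC₂, hb₂⟩ := order_bounds hg1 hg10 hd
  refine ⟨c₂, hc₂, ?_⟩
  have hlt : ∀ᶠ s : ℝ in 𝓝[>] 0, s < 1 :=
    nhdsWithin_le_nhds (Iio_mem_nhds zero_lt_one)
  filter_upwards [hpos, hlt, tendsto_pos.eventually hb₂] with s h1 h2 h3
  have h4 := h3.1
  rw [Complex.norm_real, Real.norm_of_nonneg h1.le] at h4
  refine le_trans ?_ h4
  exact mul_le_mul_of_nonneg_left (pow_le_pow_of_le_one h1.le h2.le (by omega)) hc₂.le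

/-- The inclusion of the real parameter. -/
theorem tendsto_incl : Tendsto (fun p : ℝ × ℂ => ((p.1 : ℂ), p.2)) (𝓝 (0, 0)) (𝓝 (0, 0)) := by
  have h : Continuous fun p : ℝ × ℂ => ((p.1 : ℂ), p.2) := by fun_prop
  have := h.tendsto (0, 0)
  simpa using this

/-- A holomorphic function which is large along the positive axis, uniformly in the parameter. -/
theorem exists_factor (A : ℕ) : ∀ {D : ℂ × ℂ → ℂ}, AnalyticAt ℂ D (0, 0) → ∀ {c : ℝ}, 0 < c →
    (∀ᶠ p : ℝ × ℂ in 𝓝 (0, 0), 0 < p.1 → c * p.1 ^ A ≤ ‖D ((p.1 : ℂ), p.2)‖) →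
    ∃ k ≤ A, ∃ χ : ℂ × ℂ → ℂ, AnalyticAt ℂ χ (0, 0) ∧ χ (0, 0) ≠ 0 ∧
      ∀ᶠ p in 𝓝 ((0 : ℂ), (0 : ℂ)), D p = p.1 ^ k * χ p := by
  have hpos : ∀ᶠ s : ℝ in 𝓝[>] 0, 0 < s := self_mem_nhdsWithin
  induction A with
  | zero =>
    intro D hD c hc H
    refine ⟨0, le_rfl, D, hD, ?_, by simp⟩
    intro h0
    have h1 : Tendsto (fun s : ℝ => (s, (0 : ℂ))) (𝓝[>] 0) (𝓝 (0, 0)) := by
      have h : Continuous fun s : ℝ => (s, (0 : ℂ)) := by fun_prop
      exact (h.tendsto 0).mono_left nhdsWithin_le_nhds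
    have h2 : ∀ᶠ s : ℝ in 𝓝[>] 0, c ≤ ‖D ((s : ℂ), 0)‖ := by
      filter_upwards [h1.eventually H, hpos] with s h3 h4
      simpa using h3 h4
    have h3 : Tendsto (fun s : ℝ => ‖D ((s : ℂ), 0)‖) (𝓝[>] 0) (𝓝 ‖D (0, 0)‖) := by
      have h4 := (hD.continuousAt.tendsto.comp (tendsto_incl.comp h1)).norm
      exact h4
    have h5 := ge_of_tendsto h3 h2
    rw [h0, norm_zero] at h5
    linarith
  | succ A ih =>
    intro D hD c hc H
    by_cases h00 : D (0, 0) = 0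
    swap
    · exact ⟨0, Nat.zero_le _, D, hD, h00, by simp⟩
    -- the function vanishes on the axis
    have hax : ∀ᶠ t in 𝓝 (0 : ℂ), D (0, t) = 0 := by
      have ha : AnalyticAt ℂ (fun t : ℂ => D (0, t)) 0 :=
        AnalyticAt.comp₂ (f := fun _ : ℂ => (0 : ℂ)) (g := fun t : ℂ => t) hD analyticAt_const analyticAt_id
      refine ha.eventually_eq_zero_or_eventually_ne_zero.resolve_right fun hne => ?_
      -- choice of a circle
      obtain ⟨ε₁, hε₁, h1⟩ := Metric.eventually_nhds_iff_ball.1 (hD.eventually_analyticAt)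
      obtain ⟨ε₂, hε₂, h2⟩ := Metric.eventually_nhds_iff_ball.1 H
      obtain ⟨ε₃, hε₃, h3⟩ := Metric.eventually_nhds_iff_ball.1
        (eventually_nhdsWithin_iff.1 hne)
      set ρ := min ε₁ (min ε₂ ε₃) / 2 with hρ
      have hρ0 : 0 < ρ := by positivity
      have hm : 0 < min ε₁ (min ε₂ ε₃) := by positivity
      have hρ1 : ρ < ε₁ := (half_lt_self hm).trans_le (min_le_left _ _)
      have hρ2 : ρ < ε₂ := (half_lt_self hm).trans_le ((min_le_right _ _).trans (min_le_left _ _))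
      have hρ3 : ρ < ε₃ := (half_lt_self hm).trans_le ((min_le_right _ _).trans (min_le_right _ _))
      have hmem : ∀ (s : ℝ) (t : ℂ), |s| ≤ ρ → ‖t‖ ≤ ρ → AnalyticAt ℂ D ((s : ℂ), t) := by
        intro s t hs ht
        refine h1 _ ?_
        rw [mem_ball, dist_eq_norm, Prod.norm_def]
        refine lt_of_le_of_lt ?_ hρ1
        simpa using ⟨hs, ht⟩
      -- a lower bound on the circle
      obtain ⟨t₀, ht₀, hmin⟩ := (isCompact_sphere (0 : ℂ) ρ).exists_isMinOn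
        (NormedSpace.sphere_nonempty.2 hρ0.le) (f := fun t => ‖D (0, t)‖) (by
          intro t ht
          rw [mem_sphere, dist_zero_right] at ht
          have h4 := hmem 0 t (by simpa using hρ0.le) ht.le
          have h5 : ContinuousAt (fun t : ℂ => D (0, t)) t := by
            have h6 : AnalyticAt ℂ D ((0 : ℂ), t) := by simpa using h4
            exact (AnalyticAt.comp₂ (f := fun _ : ℂ => (0 : ℂ)) (g := fun t : ℂ => t) h6
              analyticAt_const analyticAt_id).continuousAt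
          exact h5.norm.continuousWithinAt)
      have hpos₀ : 0 < ‖D (0, t₀)‖ := by
        rw [mem_sphere, dist_zero_right] at ht₀
        refine norm_pos_iff.2 (h3 t₀ ?_ ?_)
        · rw [mem_ball, dist_zero_right, ht₀]; exact hρ3
        · intro hc
          rw [hc, norm_zero] at ht₀
          exact hρ0.ne ht₀
      set m := ‖D (0, t₀)‖ / 2 with hmdef
      have hm0 : 0 < m := by positivity
      have hev : ∀ᶠ s : ℝ in 𝓝 0, ∀ t ∈ sphere (0 : ℂ) ρ, m < ‖D ((s : ℂ), t)‖ := by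
        refine (isCompact_sphere (0 : ℂ) ρ).eventually_forall_of_forall_eventually fun t ht => ?_
        have ht' : ‖t‖ = ρ := by rwa [mem_sphere, dist_zero_right] at ht
        have h4 := hmem 0 t (by simpa using hρ0.le) ht'.le
        have h5 : ContinuousAt (fun p : ℝ × ℂ => ‖D ((p.1 : ℂ), p.2)‖) (0, t) := by
          have h6 : ContinuousAt (fun p : ℝ × ℂ => ((p.1 : ℂ), p.2)) (0, t) := by fun_prop
          have h7 : ContinuousAt D ((fun p : ℝ × ℂ => ((p.1 : ℂ), p.2)) (0, t)) :=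
            h4.continuousAt
          exact (ContinuousAt.comp (g := D) (f := fun p : ℝ × ℂ => ((p.1 : ℂ), p.2)) h7 h6).norm
        refine continuousAt_const.eventually_lt h5 ?_
        have h8 : ‖D (0, t₀)‖ ≤ ‖D (0, t)‖ := hmin ht
        simp only [Complex.ofReal_zero]
        linarith
      have hsmall : ∀ᶠ s : ℝ in 𝓝[>] 0, m ≤ ‖D ((s : ℂ), 0)‖ := by
        have h4 : ∀ᶠ s : ℝ in 𝓝 0, |s| < ρ := by
          have : Continuous fun s : ℝ => |s| := by fun_prop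
          have h5 := this.tendsto 0
          rw [abs_zero] at h5
          exact h5.eventually_lt_const hρ0
        filter_upwards [nhdsWithin_le_nhds hev, nhdsWithin_le_nhds h4, hpos] with s e1 e2 e3
        have hne' : ∀ t : ℂ, ‖t‖ ≤ ρ → D ((s : ℂ), t) ≠ 0 := by
          intro t ht hcon
          have h5 := h2 (s, t) (by
            rw [mem_ball, dist_eq_norm, Prod.norm_def]
            refine lt_of_le_of_lt ?_ hρ2
            simpa using ⟨e2.le, ht⟩) e3
          rw [hcon, norm_zero] at h5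
          have := mul_pos hc (pow_pos e3 (A + 1))
          linarith
        have hdiff : DiffContOnCl ℂ (fun t : ℂ => (D ((s : ℂ), t))⁻¹) (ball 0 ρ) := by
          refine DifferentiableOn.diffContOnCl fun t ht => ?_
          rw [closure_ball _ hρ0.ne', mem_closedBall, dist_zero_right] at ht
          have h6 := hmem s t e2.le ht
          have h7 : AnalyticAt ℂ (fun t : ℂ => D ((s : ℂ), t)) t :=
            AnalyticAt.comp₂ (f := fun _ : ℂ => (s : ℂ)) (g := fun t : ℂ => t) h6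
              analyticAt_const analyticAt_id
          exact (h7.differentiableAt.inv (hne' t ht)).differentiableWithinAt
        have h8 := Complex.norm_le_of_forall_mem_frontier_norm_le (C := m⁻¹) isBounded_ball hdiff
          (fun t ht => by
            rw [frontier_ball _ hρ0.ne'] at ht
            rw [norm_inv]
            exact inv_anti₀ hm0 (e1 t ht).le) (z := 0) (subset_closure (mem_ball_self hρ0))
        rw [norm_inv] at h8
        have h9 : 0 < ‖D ((s : ℂ), 0)‖ := norm_pos_iff.2 (hne' 0 (by simpa using hρ0.le))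
        exact (inv_le_inv₀ h9 hm0).1 h8
      have hlim : Tendsto (fun s : ℝ => ‖D ((s : ℂ), 0)‖) (𝓝[>] 0) (𝓝 ‖D (0, 0)‖) := by
        have h4 : Tendsto (fun s : ℝ => (s, (0 : ℂ))) (𝓝[>] 0) (𝓝 (0, 0)) := by
          have h : Continuous fun s : ℝ => (s, (0 : ℂ)) := by fun_prop
          exact (h.tendsto 0).mono_left nhdsWithin_le_nhds
        exact (hD.continuousAt.tendsto.comp (tendsto_incl.comp h4)).norm
      have h10 := ge_of_tendsto hlim hsmall
      rw [h00, norm_zero] at h10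
      linarith
    -- division
    let π : (ℂ × ℂ) →L[ℂ] (ℂ × ℂ) :=
      (ContinuousLinearMap.inr ℂ ℂ ℂ).comp (ContinuousLinearMap.snd ℂ ℂ ℂ)
    have hπa : ∀ v, π v = (0, v.2) := fun v => rfl
    have hπ : ‖π‖ ≤ 1 := by
      refine ContinuousLinearMap.opNorm_le_bound _ zero_le_one fun v => ?_
      rw [hπa, one_mul, Prod.norm_def, Prod.norm_def]
      simp
    obtain ⟨Q, hQ, hdiv⟩ := exists_division π hπ hD
    let D₁ : ℂ × ℂ → ℂ := fun p => Q p (1, 0)
    have hD₁ : AnalyticAt ℂ D₁ (0, 0) :=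
      (ContinuousLinearMap.apply ℂ ℂ ((1, 0) : ℂ × ℂ)).analyticAt _ |>.comp hQ
    have hsnd : Tendsto (fun p : ℂ × ℂ => p.2) (𝓝 (0, 0)) (𝓝 0) :=
      (continuous_snd (X := ℂ) (Y := ℂ)).tendsto (0, 0)
    have hfac : ∀ᶠ p in 𝓝 ((0 : ℂ), (0 : ℂ)), D p = p.1 * D₁ p := by
      filter_upwards [hdiv, hsnd.eventually hax] with p e1 e2
      have e3 : ((0 : ℂ), (0 : ℂ)) + π (p - (0, 0)) = (0, p.2) := by
        rw [hπa]; ext <;> simp
      rw [e3, e2, sub_zero] at e1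
      have e4 : p - ((0 : ℂ), p.2) = p.1 • ((1, 0) : ℂ × ℂ) := by
        ext <;> simp
      rw [e1, e4, map_smul, smul_eq_mul]
    obtain ⟨k, hk, χ, hχ, hχ0, hfac'⟩ := ih hD₁ hc (by
      filter_upwards [H, tendsto_incl.eventually hfac] with p e1 e2 e3
      have e4 := e1 e3
      rw [e2, norm_mul, Complex.norm_real, Real.norm_of_nonneg e3.le, pow_succ'] at e4
      have e5 : p.1 * (c * p.1 ^ A) ≤ p.1 * ‖D₁ ((p.1 : ℂ), p.2)‖ := by
        linarith
      exact le_of_mul_le_mul_left e5 e3)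
    refine ⟨k + 1, by omega, χ, hχ, hχ0, ?_⟩
    filter_upwards [hfac, hfac'] with p e1 e2
    rw [e1, e2]
    ring

/-- Integration of the lower bound. -/
theorem lower_of_deriv {h : ℂ × ℂ → ℂ} (hh : AnalyticAt ℂ h (0, 0))
    (h0 : ∀ᶠ t in 𝓝 (0 : ℂ), h (0, t) = 0) {A : ℕ} {c : ℝ} (hc : 0 < c)
    (H : ∀ᶠ p : ℝ × ℂ in 𝓝 (0, 0), 0 < p.1 →
      c * p.1 ^ A ≤ ‖fderiv ℂ h ((p.1 : ℂ), p.2) (1, 0)‖) :
    ∃ c' : ℝ, 0 < c' ∧ ∀ᶠ p : ℝ × ℂ in 𝓝 (0, 0), 0 < p.1 →
      c' * p.1 ^ (A + 1) ≤ ‖h ((p.1 : ℂ), p.2)‖ := by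
  have hD : AnalyticAt ℂ (fun p => fderiv ℂ h p (1, 0)) (0, 0) :=
    (ContinuousLinearMap.apply ℂ ℂ ((1, 0) : ℂ × ℂ)).analyticAt _ |>.comp hh.fderiv
  obtain ⟨k, hk, χ, hχ, hχ0, hfac⟩ := exists_factor A hD hc H
  set a := ‖χ (0, 0)‖ with ha
  have ha0 : 0 < a := norm_pos_iff.2 hχ0
  have hk0 : (0 : ℝ) < k + 1 := by positivity
  set η := a / (2 * (k + 1)) with hη
  have hη0 : 0 < η := by positivity
  have hχn : ∀ᶠ p in 𝓝 ((0 : ℂ), (0 : ℂ)), ‖χ p - χ (0, 0)‖ < η := by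
    have h1 : Tendsto (fun p => ‖χ p - χ (0, 0)‖) (𝓝 (0, 0)) (𝓝 ‖χ (0, 0) - χ (0, 0)‖) :=
      (hχ.continuousAt.sub continuousAt_const).norm
    rw [sub_self, norm_zero] at h1
    exact h1.eventually_lt_const hη0
  obtain ⟨ε, hε, hb⟩ := Metric.eventually_nhds_iff_ball.1
    (hh.eventually_analyticAt.and (hfac.and hχn))
  obtain ⟨ε', hε', hb'⟩ := Metric.eventually_nhds_iff_ball.1 h0
  refine ⟨η, hη0, ?_⟩
  have hnear : ∀ᶠ p : ℝ × ℂ in 𝓝 (0, 0), ‖p‖ < min 1 (min ε ε') := by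
    have h1 : Continuous fun p : ℝ × ℂ => ‖p‖ := by fun_prop
    have h2 := h1.tendsto ((0 : ℝ), (0 : ℂ))
    rw [show ‖((0 : ℝ), (0 : ℂ))‖ = 0 from norm_zero] at h2
    exact h2.eventually_lt_const (by positivity)
  filter_upwards [hnear] with p hp hp0
  have hs1 : p.1 < 1 := by
    have := ((norm_fst_le p).trans_lt hp).trans_le (min_le_left _ _)
    rw [Real.norm_of_nonneg hp0.le] at this
    exact this
  have hsε : p.1 < ε := by
    have := ((norm_fst_le p).trans_lt hp).trans_le ((min_le_right _ _).trans (min_le_left _ _))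
    rw [Real.norm_of_nonneg hp0.le] at this
    exact this
  have htε : ‖p.2‖ < ε := ((norm_snd_le p).trans_lt hp).trans_le
    ((min_le_right _ _).trans (min_le_left _ _))
  have htε' : ‖p.2‖ < ε' := ((norm_snd_le p).trans_lt hp).trans_le
    ((min_le_right _ _).trans (min_le_right _ _))
  have hmem : ∀ z ∈ closedBall (0 : ℂ) p.1, (z, p.2) ∈ ball ((0 : ℂ), (0 : ℂ)) ε := by
    intro z hz
    rw [mem_closedBall, dist_zero_right] at hz
    rw [mem_ball, dist_eq_norm, Prod.norm_def]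
    simpa using ⟨hz.trans_lt hsε, htε⟩
  have hder : ∀ z ∈ closedBall (0 : ℂ) p.1,
      HasDerivWithinAt (fun z => h (z, p.2) - χ (0, 0) * (z ^ (k + 1) / (k + 1)))
        (z ^ k * (χ (z, p.2) - χ (0, 0))) (closedBall (0 : ℂ) p.1) z := by
    intro z hz
    obtain ⟨e1, e2, e3⟩ := hb _ (hmem z hz)
    have h1 : HasDerivAt (fun z : ℂ => (z, p.2)) ((1 : ℂ), (0 : ℂ)) z :=
      (hasDerivAt_id z).prodMk (hasDerivAt_const z p.2)
    have h2 : HasDerivAt (fun z : ℂ => h (z, p.2)) (fderiv ℂ h (z, p.2) (1, 0)) z :=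
      e1.differentiableAt.hasFDerivAt.comp_hasDerivAt z h1
    have h3 : HasDerivAt (fun z : ℂ => χ (0, 0) * (z ^ (k + 1) / ((k : ℂ) + 1)))
        (χ (0, 0) * (((k + 1 : ℕ) : ℂ) * z ^ k / ((k : ℂ) + 1))) z := by
      have := ((hasDerivAt_pow (k + 1) z).div_const ((k : ℂ) + 1)).const_mul (χ (0, 0))
      simpa using this
    have h4 := (h2.sub h3).hasDerivWithinAt (s := closedBall (0 : ℂ) p.1)
    refine h4.congr_deriv ?_
    rw [e2]
    have h5 : ((k : ℂ) + 1) ≠ 0 := by exact_mod_cast Nat.succ_ne_zero k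
    push_cast
    field_simp
  have hbound : ∀ z ∈ closedBall (0 : ℂ) p.1,
      ‖z ^ k * (χ (z, p.2) - χ (0, 0))‖ ≤ p.1 ^ k * η := by
    intro z hz
    obtain ⟨e1, e2, e3⟩ := hb _ (hmem z hz)
    rw [mem_closedBall, dist_zero_right] at hz
    rw [norm_mul, norm_pow]
    exact mul_le_mul (pow_le_pow_left₀ (norm_nonneg _) hz k) e3.le (norm_nonneg _)
      (by positivity)
  have hmv := Convex.norm_image_sub_le_of_norm_hasDerivWithin_le hder hbound
    (convex_closedBall _ _) (mem_closedBall_self hp0.le)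
    (show ((p.1 : ℝ) : ℂ) ∈ closedBall (0 : ℂ) p.1 by
      rw [mem_closedBall, dist_zero_right, Complex.norm_real, Real.norm_of_nonneg hp0.le])
  have hz0 : h (0, p.2) = 0 := hb' _ (by rwa [mem_ball, dist_zero_right])
  rw [hz0, sub_zero, Complex.norm_real, Real.norm_of_nonneg hp0.le] at hmv
  simp only [ne_eq, Nat.add_eq_zero_iff, one_ne_zero, and_false, not_false_eq_true, zero_pow,
    zero_div, mul_zero, sub_zero] at hmv
  have hmain : ‖χ (0, 0) * ((p.1 : ℂ) ^ (k + 1) / ((k : ℂ) + 1))‖ = 2 * (η * p.1 ^ (k + 1)) := by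
    rw [norm_mul, norm_div, norm_pow, Complex.norm_real, Real.norm_of_nonneg hp0.le]
    have : ‖(k : ℂ) + 1‖ = (k : ℝ) + 1 := by
      rw [← Nat.cast_succ, Complex.norm_natCast]
      push_cast
      ring
    rw [this, hη]
    field_simp
    try ring
  have htri := norm_sub_norm_le (χ (0, 0) * ((p.1 : ℂ) ^ (k + 1) / ((k : ℂ) + 1)))
    (h ((p.1 : ℂ), p.2))
  rw [norm_sub_rev] at htri
  have hlow : η * p.1 ^ (k + 1) ≤ ‖h ((p.1 : ℂ), p.2)‖ := by
    have e : p.1 ^ k * η * p.1 = η * p.1 ^ (k + 1) := by ring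
    rw [e] at hmv
    rw [hmain] at htri
    linarith
  refine le_trans ?_ hlow
  exact mul_le_mul_of_nonneg_left (pow_le_pow_of_le_one hp0.le hs1.le (by omega)) hη0.le

end Vale.Agent.P298.H974
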